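import Vale.Agent.N072R.Pot

/-! # Dissipative differential inclusions on the open orthant: a-priori bounds -/

set_option linter.all false

namespace Vale.Agent.N072R

open MeasureTheory
open Vale.Agent.P072 (decrease_chain sum_ge bound_of_sum exists_pos_le abs_log_le_of_mem
  no_linear_decrease num_aux)

variable {d : ℕ}

/-- The covector `p` is aligned with `log y` on the vectors of `W`, with margin `δ`. -/
def Aligned (W : Finset (Fin d → ℝ)) (δ : ℝ) (p y : Fin d → ℝ) : Prop :=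
  ∀ v ∈ W, 0 < ∑ i, v i * p i → δ < ∑ i, v i * Real.log (y i)

/-- A positive absolutely continuous curve on `[s, t]` whose velocity lies in `F` almost
everywhere. -/
def Curve (F : (Fin d → ℝ) → Set (Fin d → ℝ)) (x : ℝ → Fin d → ℝ) (s t : ℝ) : Prop :=
  ContinuousOn x (Set.Icc s t) ∧ (∀ r ∈ Set.Icc s t, ∀ i, 0 < x r i) ∧
    ∃ u : ℝ → Fin d → ℝ, IntegrableOn u (Set.Icc s t) ∧
      (∀ a b, s ≤ a → a ≤ b → b ≤ t → x b - x a = ∫ r in a..b, u r) ∧
      ∀ᵐ r : ℝ, r ∈ Set.Icc s t → u r ∈ F (x r)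

/-- Weak dissipativity: aligned covectors pair nonpositively with all velocities. -/
def Diss (W : Finset (Fin d → ℝ)) (δ : ℝ) (F : (Fin d → ℝ) → Set (Fin d → ℝ)) : Prop :=
  ∀ y : Fin d → ℝ, (∀ i, 0 < y i) → ∀ p, Aligned W δ p y → ∀ u ∈ F y, ∑ i, p i * u i ≤ 0

/-- Strict dissipativity in the directions of `R`. -/
def SDiss (W : Finset (Fin d → ℝ)) (δ : ℝ) (R : Finset (Fin d → ℝ))
    (F : (Fin d → ℝ) → Set (Fin d → ℝ)) : Prop :=
  (∀ y : Fin d → ℝ, (∀ i, 0 < y i) → ∀ u ∈ F y, u ∈ Submodule.span ℝ (R : Set (Fin d → ℝ))) ∧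
  ∀ κ > 0, ∀ B : ℝ, ∀ h > 0, ∃ ρ > 0, ∀ y : Fin d → ℝ, (∀ i, κ ≤ y i ∧ y i ≤ B) →
    ∀ p, Aligned W δ p y → (∃ v ∈ R, h ≤ |∑ i, p i * v i|) → ∀ u ∈ F y, ∑ i, p i * u i ≤ -ρ

variable {F : (Fin d → ℝ) → Set (Fin d → ℝ)} {W R : Finset (Fin d → ℝ)} {δ : ℝ}

theorem Curve.mono {x : ℝ → Fin d → ℝ} {s t s' t' : ℝ} (h : Curve F x s t) (hs : s ≤ s')
    (ht : t' ≤ t) : Curve F x s' t' := by
  have hsub : Set.Icc s' t' ⊆ Set.Icc s t := Set.Icc_subset_Icc hs ht
  obtain ⟨hc, hp, u, hu, hi, hF⟩ := h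
  refine ⟨hc.mono hsub, fun r hr => hp r (hsub hr), u, hu.mono_set hsub,
    fun a b ha hab hb => hi a b (hs.trans ha) hab (hb.trans ht), ?_⟩
  filter_upwards [hF] with r hr hr' using hr (hsub hr')

theorem Curve.pos {x : ℝ → Fin d → ℝ} {s t : ℝ} (h : Curve F x s t) :
    ∀ r ∈ Set.Icc s t, ∀ i, 0 < x r i := h.2.1

theorem Curve.continuousOn_apply {x : ℝ → Fin d → ℝ} {s t : ℝ} (h : Curve F x s t) (i : Fin d) :
    ContinuousOn (fun r => x r i) (Set.Icc s t) :=
  fun r hr => (continuous_apply i).continuousAt.comp_continuousWithinAt (h.1 r hr)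

/-- A curve from the integral equation with base point `s`. -/
theorem Curve.of_integral {x u : ℝ → Fin d → ℝ} {s t : ℝ} (hst : s ≤ t)
    (hc : ContinuousOn x (Set.Icc s t)) (hp : ∀ r ∈ Set.Icc s t, ∀ i, 0 < x r i)
    (hu : IntervalIntegrable u volume s t)
    (hi : ∀ b ∈ Set.Icc s t, x b = x s + ∫ r in s..b, u r)
    (hF : ∀ᵐ r : ℝ, r ∈ Set.Icc s t → u r ∈ F (x r)) : Curve F x s t := by
  refine ⟨hc, hp, u, (intervalIntegrable_iff_integrableOn_Icc_of_le hst).1 hu, ?_, hF⟩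
  intro a b ha hab hb
  have h3 : IntervalIntegrable u volume s a := hu.mono_set (by
    rw [Set.uIcc_of_le ha, Set.uIcc_of_le hst]
    exact Set.Icc_subset_Icc_right (hab.trans hb))
  have h4 : IntervalIntegrable u volume a b := hu.mono_set (by
    rw [Set.uIcc_of_le hab, Set.uIcc_of_le hst]
    exact Set.Icc_subset_Icc ha hb)
  rw [hi b ⟨ha.trans hab, hb⟩, hi a ⟨ha, hab.trans hb⟩,
    ← intervalIntegral.integral_add_adjacent_intervals h3 h4]
  abel

theorem Curve.sub_mem {x : ℝ → Fin d → ℝ} {s t : ℝ} (hst : s ≤ t) (h : Curve F x s t)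
    (S : Submodule ℝ (Fin d → ℝ)) (hS : ∀ y : Fin d → ℝ, (∀ i, 0 < y i) → ∀ u ∈ F y, u ∈ S) :
    x t - x s ∈ S := by
  obtain ⟨hc, hp, u, hu, hi, hF⟩ := h
  by_contra hcon
  obtain ⟨φ, hφ, hφ'⟩ := Submodule.exists_dual_map_eq_bot_of_notMem hcon inferInstance
  apply hφ
  have hzero : ∀ v ∈ S, φ v = 0 := by
    intro v hv
    have : φ v ∈ S.map φ := Submodule.mem_map_of_mem hv
    rw [hφ'] at this
    exact this
  let φ' : (Fin d → ℝ) →L[ℝ] ℝ := φ.toContinuousLinearMap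
  have hint : IntervalIntegrable u volume s t :=
    (intervalIntegrable_iff_integrableOn_Icc_of_le hst).2 hu
  show φ' (x t - x s) = 0
  rw [hi s t le_rfl hst le_rfl, ← ContinuousLinearMap.intervalIntegral_comp_comm φ' hint]
  rw [← intervalIntegral.integral_zero (a := s) (b := t) (μ := volume)]
  apply intervalIntegral.integral_congr_ae
  filter_upwards [hF] with r hr hr'
  rw [Set.uIoc_of_le hst] at hr'
  have hr2 : r ∈ Set.Icc s t := ⟨hr'.1.le, hr'.2⟩
  exact hzero _ (hS _ (hp r hr2) _ (hr hr2))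

/-- A potential on the coordinates in `I`, valid where the other coordinates are in `[κ, B]`. -/
structure IsPot (W : Finset (Fin d → ℝ)) (δ : ℝ) (I : Finset (Fin d)) (κ B : ℝ)
    (V : (Fin d → ℝ) → ℝ) (C : ℝ) : Prop where
  C_nonneg : 0 ≤ C
  lower : ∀ x : Fin d → ℝ, (∀ i ∈ I, 0 < x i) → ∑ i ∈ I, x i * (Real.log (x i) - C) ≤ V x
  upper : ∀ x : Fin d → ℝ, (∀ i ∈ I, 0 < x i) → V x ≤ ∑ i ∈ I, x i * (Real.log (x i) + C)
  grad : ∀ x : Fin d → ℝ, (∀ i, 0 < x i) → (∀ i ∉ I, κ ≤ x i ∧ x i ≤ B) → ∀ ε > 0,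
    ∃ p : Fin d → ℝ, (∀ i ∉ I, p i = 0) ∧
      (∀ x' : Fin d → ℝ, (∀ i ∈ I, 0 < x' i) → V x - ε + ∑ i, p i * (x' i - x i) ≤ V x') ∧
      (∀ i ∈ I, |p i - Real.log (x i)| ≤ C) ∧ Aligned W (δ + 1) p x

theorem exists_isPot (W : Finset (Fin d → ℝ)) (δ : ℝ) (I : Finset (Fin d)) (κ B : ℝ)
    (hκ : 0 < κ) : ∃ V C, IsPot W δ I κ B V C := by
  classical
  set M : ℝ := ∑ v ∈ W, ∑ i, |v i| with hM
  have hMv : ∀ v ∈ W, ∑ i, |v i| ≤ M := fun v hv =>
    Finset.single_le_sum (f := fun v : Fin d → ℝ => ∑ i, |v i|)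
      (fun v _ => Finset.sum_nonneg fun i _ => abs_nonneg _) hv
  set L : ℝ := |Real.log κ| + |Real.log B| with hL
  have hL0 : 0 ≤ L := by positivity
  obtain ⟨V, C, hC, hbd, hgrad⟩ := exists_potential I W (δ + 1 + M * L)
  refine ⟨V, C, hC, fun x hx => (hbd x hx).1, fun x hx => (hbd x hx).2, ?_⟩
  intro x hx hxI ε hε
  obtain ⟨p, hp0, hp1, hp2, hp3⟩ := hgrad x (fun i _ => hx i) ε hε
  refine ⟨p, hp0, hp1, hp2, fun v hv hpos => ?_⟩
  have h3 := hp3 v hv hpos
  have h5 : ∑ i, v i * Real.log (x i) =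
      ∑ i ∈ I, v i * Real.log (x i) + ∑ i ∈ Iᶜ, v i * Real.log (x i) :=
    (Finset.sum_add_sum_compl I _).symm
  have h6 : |∑ i ∈ Iᶜ, v i * Real.log (x i)| ≤ M * L := by
    calc |∑ i ∈ Iᶜ, v i * Real.log (x i)| ≤ ∑ i ∈ Iᶜ, |v i * Real.log (x i)| :=
          Finset.abs_sum_le_sum_abs _ _
      _ ≤ ∑ i ∈ Iᶜ, |v i| * L := by
          apply Finset.sum_le_sum
          intro i hi
          rw [abs_mul]
          have hi' : i ∉ I := by simpa using hi
          exact mul_le_mul_of_nonneg_left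
            (abs_log_le_of_mem hκ (hxI i hi').1 (hxI i hi').2) (abs_nonneg _)
      _ ≤ ∑ i, |v i| * L := Finset.sum_le_sum_of_subset_of_nonneg (Finset.subset_univ _)
          fun i _ _ => mul_nonneg (abs_nonneg _) hL0
      _ = (∑ i, |v i|) * L := by rw [Finset.sum_mul]
      _ ≤ M * L := mul_le_mul_of_nonneg_right (hMv v hv) hL0
  have h8 := neg_abs_le (∑ i ∈ Iᶜ, v i * Real.log (x i))
  rw [h5]
  linarith only [h3, h6, h8]

variable {I : Finset (Fin d)} {κ B C : ℝ} {V : (Fin d → ℝ) → ℝ}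

/-- Decrease of the potential along a curve. -/
theorem IsPot.decrease_gen (hV : IsPot W δ I κ B V C) {x : ℝ → Fin d → ℝ} {s t : ℝ}
    (hst : s ≤ t) (hx : Curve F x s t)
    (hreg : ∀ r ∈ Set.Icc s t, ∀ i ∉ I, κ ≤ x r i ∧ x r i ≤ B) {ρ : ℝ}
    (hdec : ∀ b ∈ Set.Icc s t, ∀ p : Fin d → ℝ, (∀ i ∉ I, p i = 0) →
      (∀ x' : Fin d → ℝ, (∀ i ∈ I, 0 < x' i) →
        V (x b) - 1 / 2 + ∑ i, p i * (x' i - x b i) ≤ V x') →
      (∀ i ∈ I, |p i - Real.log (x b i)| ≤ C) →
      ∀ r ∈ Set.Icc s t, Aligned W δ p (x r) → ∀ u ∈ F (x r), ∑ i, p i * u i ≤ -ρ) :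
    V (x t) ≤ V (x s) - ρ * (t - s) := by
  have hxa := fun i => hx.continuousOn_apply i
  obtain ⟨hc, hpos, u, hu, hi, hF⟩ := hx
  -- uniform continuity of the pairings with the logarithm
  let g : ℝ → (W → ℝ) := fun r v => ∑ i, v.1 i * Real.log (x r i)
  have hg : ContinuousOn g (Set.Icc s t) := by
    refine continuousOn_pi.2 fun v => continuousOn_finsetSum _ fun i _ => ?_
    exact continuousOn_const.mul ((hxa i).log fun r hr => (hpos r hr i).ne')
  have hgu := isCompact_Icc.uniformContinuousOn_of_continuous hg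
  obtain ⟨h, hh, hgh⟩ := Metric.uniformContinuousOn_iff_le.1 hgu 1 one_pos
  have hloc : ∀ a b, s ≤ a → a ≤ b → b ≤ t → b - a ≤ h →
      V (x b) ≤ V (x a) + (b - a) * (-ρ) := by
    intro a b ha hab hb hba
    have hbm : b ∈ Set.Icc s t := ⟨ha.trans hab, hb⟩
    have ham : a ∈ Set.Icc s t := ⟨ha, hab.trans hb⟩
    apply le_of_forall_pos_le_add
    intro ε hε
    obtain ⟨p, h1, h2, h3, h4⟩ := hV.grad (x b) (hpos b hbm) (hreg b hbm) (min ε (1 / 2))
      (lt_min hε (by norm_num))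
    have h2b : ∀ x' : Fin d → ℝ, (∀ i ∈ I, 0 < x' i) →
        V (x b) - 1 / 2 + ∑ i, p i * (x' i - x b i) ≤ V x' := by
      intro x' hx'
      have := h2 x' hx'
      have h6 := min_le_right ε (1 / 2)
      linarith only [this, h6]
    have h5 := h2 (x a) (fun i _ => hpos a ham i)
    have h6 := min_le_left ε (1 / 2)
    let φ : (Fin d → ℝ) →L[ℝ] ℝ := ∑ i, p i • ContinuousLinearMap.proj i
    have hφ : ∀ y : Fin d → ℝ, φ y = ∑ i, p i * y i := by
      intro y
      simp [φ]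
    have hint : IntervalIntegrable u volume a b :=
      (intervalIntegrable_iff_integrableOn_Icc_of_le hab).2
        (hu.mono_set (Set.Icc_subset_Icc ha hb))
    have h7 : φ (x b - x a) = ∫ r in a..b, φ (u r) := by
      rw [hi a b ha hab hb, ← ContinuousLinearMap.intervalIntegral_comp_comm φ hint]
    have h8 : ∫ r in a..b, φ (u r) ≤ ∫ r in a..b, (-ρ) := by
      apply intervalIntegral.integral_mono_ae_restrict hab
        ⟨φ.integrable_comp hint.1, φ.integrable_comp hint.2⟩ intervalIntegrable_const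
      refine (ae_restrict_iff' measurableSet_Icc).2 ?_
      filter_upwards [hF] with r hr hrab
      have hrm : r ∈ Set.Icc s t := ⟨ha.trans hrab.1, hrab.2.trans hb⟩
      show φ (u r) ≤ -ρ
      rw [hφ]
      refine hdec b hbm p h1 h2b h3 r hrm (fun v hv hpv => ?_) _ (hr hrm)
      have e1 := h4 v hv hpv
      have e2 : dist (g r) (g b) ≤ 1 := hgh r hrm b hbm (by
        rw [Real.dist_eq, abs_le]
        constructor <;> linarith only [hrab.1, hrab.2, hba, hh])
      have e3 := (dist_le_pi_dist (g r) (g b) ⟨v, hv⟩).trans e2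
      rw [Real.dist_eq] at e3
      have e4 := (abs_le.1 e3).1
      simp only [g] at e4
      linarith only [e1, e4]
    rw [intervalIntegral.integral_const, smul_eq_mul] at h8
    have h9 : ∑ i, p i * (x a i - x b i) = - φ (x b - x a) := by
      rw [hφ, ← Finset.sum_neg_distrib]
      refine Finset.sum_congr rfl fun i _ => ?_
      rw [Pi.sub_apply]; ring
    rw [h9, h7] at h5
    linarith only [h5, h6, h8]
  obtain ⟨n, hn⟩ := exists_nat_ge ((t - s) / h)
  have := decrease_chain (fun r => V (x r)) s t (-ρ) h hh hloc n s t le_rfl hst le_rfl (by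
    rw [div_le_iff₀ hh] at hn; exact hn)
  linarith only [this]

theorem IsPot.decrease (hV : IsPot W δ I κ B V C) (hF : Diss W δ F) {x : ℝ → Fin d → ℝ}
    {s t : ℝ} (hst : s ≤ t) (hx : Curve F x s t)
    (hreg : ∀ r ∈ Set.Icc s t, ∀ i ∉ I, κ ≤ x r i ∧ x r i ≤ B) : V (x t) ≤ V (x s) := by
  have := hV.decrease_gen hst hx hreg (ρ := 0) (fun b _ p _ _ _ r hr hal u hu => by
    rw [neg_zero]; exact hF _ (hx.pos r hr) p hal u hu)
  simpa using this

/-- The exit lemma. -/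
theorem exit_lemma {κ' : ℝ} (hV : IsPot W δ I κ' B V C) (hF : Diss W δ F) {ε : ℝ} (hε : 0 < ε) (hεC : Real.log ε + C < 0) :
    ∃ κ > 0, ∀ (x : ℝ → Fin d → ℝ) (s t : ℝ), s ≤ t → Curve F x s t →
      (∀ r ∈ Set.Icc s t, (∀ i ∈ I, x r i ≤ ε) → ∀ i ∉ I, κ' ≤ x r i ∧ x r i ≤ B) →
      (∃ i ∈ I, ε ≤ x s i) → ∃ i ∈ I, κ ≤ x t i := by
  set μ := -(ε * (Real.log ε + C)) with hμ
  have hμ0 : 0 < μ := by
    rw [hμ]; nlinarith
  have hcont : Continuous fun y : ℝ => y * (Real.log y - C) := by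
    have : (fun y : ℝ => y * (Real.log y - C)) = fun y => y * Real.log y - y * C := by
      ext y; ring
    rw [this]
    exact Real.continuous_mul_log.sub (continuous_id.mul continuous_const)
  have hμd : 0 < μ / (d + 1) := by (clear * - hμ0; positivity)
  obtain ⟨κ₀, hκ₀, hκ⟩ := Metric.continuous_iff.mp hcont 0 (μ / (d + 1)) hμd
  refine ⟨min κ₀ ε, lt_min hκ₀ hε, ?_⟩
  intro x s t hst hx hreg hs
  by_contra hcon
  push Not at hcon
  let A : Set ℝ := ⋃ i ∈ I, (Set.Icc s t ∩ (fun r => x r i) ⁻¹' Set.Ici ε)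
  have hAc : IsClosed A := by
    apply isClosed_biUnion_finset
    intro i _
    exact (hx.continuousOn_apply i).preimage_isClosed_of_isClosed isClosed_Icc isClosed_Ici
  have hmemA : ∀ r, r ∈ A ↔ r ∈ Set.Icc s t ∧ ∃ i ∈ I, ε ≤ x r i := by
    intro r
    simp only [A, Set.mem_iUnion, Set.mem_inter_iff, Set.mem_preimage, Set.mem_Ici]
    constructor
    · rintro ⟨i, hi, h1, h2⟩; exact ⟨h1, i, hi, h2⟩
    · rintro ⟨h1, i, hi, h2⟩; exact ⟨i, hi, h1, h2⟩
  have hsA : s ∈ A := (hmemA s).2 ⟨⟨le_rfl, hst⟩, hs⟩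
  have hAb : BddAbove A := ⟨t, fun r hr => ((hmemA r).1 hr).1.2⟩
  have hs'A : sSup A ∈ A := hAc.csSup_mem ⟨s, hsA⟩ hAb
  set s' := sSup A with hs'def
  obtain ⟨⟨hs'1, hs'2⟩, i₀, hi₀, hi₀ε⟩ := (hmemA s').1 hs'A
  have htA : t ∉ A := by
    intro h
    obtain ⟨_, i, hi, hi'⟩ := (hmemA t).1 h
    have := hcon i hi
    exact absurd (lt_of_lt_of_le this (min_le_right _ _)) (not_lt.mpr hi')
  have hs't : s' < t := by
    rcases eq_or_lt_of_le hs'2 with h | h
    · exact absurd (h ▸ hs'A) htA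
    · exact h
  have hlt : ∀ r ∈ Set.Ioc s' t, ∀ i ∈ I, x r i < ε := by
    intro r hr i hi
    by_contra hc
    push Not at hc
    have : r ∈ A := (hmemA r).2 ⟨⟨hs'1.trans hr.1.le, hr.2⟩, i, hi, hc⟩
    exact absurd (le_csSup hAb this) (not_le.mpr hr.1)
  have hle : ∀ i ∈ I, x s' i ≤ ε := by
    intro i hi
    have h1 : ContinuousWithinAt (fun r => x r i) (Set.Ioc s' t) s' :=
      (hx.continuousOn_apply i s' ⟨hs'1, hs'2⟩).mono
        (fun r hr => ⟨hs'1.trans hr.1.le, hr.2⟩)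
    have hcl : s' ∈ closure (Set.Ioc s' t) := by
      rw [closure_Ioc hs't.ne]
      exact ⟨le_rfl, hs't.le⟩
    have h2 := h1.mem_closure hcl (t := Set.Iic ε) (fun r hr => (hlt r hr i hi).le)
    rw [isClosed_Iic.closure_eq] at h2
    exact h2
  have hseg : Curve F x s' t := hx.mono hs'1 le_rfl
  have hdec := hV.decrease hF hs't.le hseg (by
    intro r hr
    apply hreg r ⟨hs'1.trans hr.1, hr.2⟩
    intro i hi
    rcases eq_or_lt_of_le hr.1 with h | h
    · rw [← h]; exact hle i hi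
    · exact (hlt r ⟨h, hr.2⟩ i hi).le)
  have hup : V (x s') ≤ -μ := by
    refine (hV.upper (x s') (fun i _ => hseg.pos s' ⟨le_rfl, hs't.le⟩ i)).trans ?_
    have hterm : ∀ i ∈ I, x s' i * (Real.log (x s' i) + C) ≤ 0 := by
      intro i hi
      have h0 := hseg.pos s' ⟨le_rfl, hs't.le⟩ i
      have h1 : Real.log (x s' i) ≤ Real.log ε := Real.log_le_log h0 (hle i hi)
      exact mul_nonpos_of_nonneg_of_nonpos h0.le (by linarith only [hεC, h1])
    have h1 : ∑ i ∈ I, x s' i * (Real.log (x s' i) + C) ≤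
        x s' i₀ * (Real.log (x s' i₀) + C) := by
      have := Finset.single_le_sum (f := fun i => -(x s' i * (Real.log (x s' i) + C)))
        (fun i hi => by have := hterm i hi; linarith only [this]) hi₀
      simp only [Finset.sum_neg_distrib] at this
      linarith only [this]
    have h2 : x s' i₀ = ε := le_antisymm (hle i₀ hi₀) hi₀ε
    rw [h2] at h1
    linarith only [h1]
  have hlow : -μ < V (x t) := by
    refine lt_of_lt_of_le ?_ (hV.lower (x t) (fun i _ => hseg.pos t ⟨hs't.le, le_rfl⟩ i))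
    have hterm : ∀ i ∈ I, -(μ / (d + 1)) ≤ x t i * (Real.log (x t i) - C) := by
      intro i hi
      have h0 := hseg.pos t ⟨hs't.le, le_rfl⟩ i
      have h1 : dist (x t i) 0 < κ₀ := by
        rw [Real.dist_eq, sub_zero, abs_of_pos h0]
        exact lt_of_lt_of_le (hcon i hi) (min_le_left _ _)
      have h2 := hκ (x t i) h1
      rw [Real.dist_eq] at h2
      have h3 := (abs_lt.mp h2).1
      simp only [zero_mul] at h3
      linarith only [h3]
    have h1 := Finset.sum_le_sum hterm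
    rw [Finset.sum_const, nsmul_eq_mul] at h1
    refine lt_of_lt_of_le ?_ h1
    have h2 : (I.card : ℝ) ≤ d := by
      have := Finset.card_le_univ I
      rw [Fintype.card_fin] at this
      exact_mod_cast this
    have h3 : (I.card : ℝ) * (μ / (d + 1)) ≤ d * (μ / (d + 1)) :=
      mul_le_mul_of_nonneg_right h2 hμd.le
    have h4 : (d : ℝ) * (μ / (d + 1)) < μ := by
      rw [mul_div_assoc', div_lt_iff₀ (by (clear * -; positivity))]
      nlinarith only [hμ0]
    linarith only [h3, h4]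
  linarith only [hdec, hup, hlow]

/-- The set of positive segments on `[s,t]` with a bound and a lower bound at time `s`
always has one coordinate of `I` above a fixed level. -/
theorem apriori_low (hF : Diss W δ F) (B ε₀ : ℝ) (hε₀ : 0 < ε₀) :
    ∀ (n : ℕ) (I : Finset (Fin d)), I.Nonempty → Iᶜ.card < n →
      ∃ κ > 0, ∀ (x : ℝ → Fin d → ℝ) (s t : ℝ), s ≤ t → Curve F x s t →
        (∀ i, ε₀ ≤ x s i) → (∀ r ∈ Set.Icc s t, ∀ i, x r i ≤ B) → ∃ i ∈ I, κ ≤ x t i := by
  intro n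
  induction n with
  | zero => intro I _ h; exact absurd h (Nat.not_lt_zero _)
  | succ n ih =>
    intro I hI hIn
    have hstep : ∀ j : Fin d, ∃ κ > 0, j ∉ I → ∀ (x : ℝ → Fin d → ℝ) (s t : ℝ), s ≤ t →
        Curve F x s t → (∀ i, ε₀ ≤ x s i) →
        (∀ r ∈ Set.Icc s t, ∀ i, x r i ≤ B) → ∃ i ∈ insert j I, κ ≤ x t i := by
      intro j
      by_cases hj : j ∈ I
      · exact ⟨1, one_pos, fun h => absurd hj h⟩
      · have hcard : (insert j I)ᶜ.card < n := by
          have h1 : (insert j I)ᶜ ⊂ Iᶜ := by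
            rw [Finset.compl_ssubset_compl]
            exact Finset.ssubset_insert hj
          have := Finset.card_lt_card h1
          omega
        obtain ⟨κ, hκ, h⟩ := ih (insert j I) (Finset.insert_nonempty _ _) hcard
        exact ⟨κ, hκ, fun _ => h⟩
    choose κf hκf hκ using hstep
    obtain ⟨κ', hκ', hκ'le⟩ := exists_pos_le κf hκf
    obtain ⟨V, C, hV⟩ := exists_isPot W δ I κ' B hκ'
    -- choose ε
    obtain ⟨ε, hε0, hε1, hε2, hε3⟩ : ∃ ε : ℝ, 0 < ε ∧ ε < κ' ∧ ε ≤ ε₀ ∧ Real.log ε + C < 0 := by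
      obtain ⟨e, he, hle⟩ := exists_pos_le (ι := Fin 3) ![κ' / 2, ε₀, Real.exp (-C - 1)] (by
        intro i; fin_cases i
        · show 0 < κ' / 2; linarith only [hκ']
        · exact hε₀
        · exact Real.exp_pos _)
      refine ⟨e, he, ?_, hle 1, ?_⟩
      · have := hle 0
        simp only [Matrix.cons_val_zero] at this
        linarith only [he, this]
      · have h2 : e ≤ Real.exp (-C - 1) := hle 2
        have h3 : Real.log e ≤ -C - 1 := (Real.log_le_iff_le_exp he).mpr h2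
        linarith only [h3]
    obtain ⟨κ, hκ0, hex⟩ := exit_lemma hV hF hε0 hε3
    refine ⟨κ, hκ0, ?_⟩
    intro x s t ht hx hx0 hxB
    apply hex x s t ht hx
    · intro r hr hrI j hj
      refine ⟨?_, hxB r hr j⟩
      obtain ⟨i, hi, hi'⟩ := hκ j hj x s r hr.1 (hx.mono le_rfl hr.2) hx0
        (fun r' hr' => hxB r' ⟨hr'.1, hr'.2.trans hr.2⟩)
      rcases Finset.mem_insert.mp hi with h | h
      · rw [h] at hi'
        exact (hκ'le j).trans hi'
      · exfalso
        have h1 := hrI i h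
        have h2 := hκ'le j
        linarith only [hε1, hi', h1, h2]
    · obtain ⟨i, hi⟩ := hI
      exact ⟨i, hi, hε2.trans (hx0 i)⟩

/-- Upper a-priori bound. -/
theorem apriori_up (hF : Diss W δ F) (B₀ : ℝ) :
    ∃ B, ∀ (x : ℝ → Fin d → ℝ) (s t : ℝ), s ≤ t → Curve F x s t → (∀ i, x s i ≤ B₀) →
      ∀ i, x t i ≤ B := by
  obtain ⟨V, C, hV⟩ := exists_isPot W δ Finset.univ 1 1 one_pos
  refine ⟨max (Real.exp (C + 1)) (d * (|B₀| * (|B₀| + C)) + d * Real.exp C), ?_⟩
  intro x s t ht hx hx0 i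
  have h1 := hV.decrease hF ht hx (fun r _ i hi => absurd (Finset.mem_univ i) hi)
  have hpos := hx.pos t ⟨ht, le_rfl⟩
  have hpos0 := hx.pos s ⟨le_rfl, ht⟩
  have h2 : V (x s) ≤ d * (|B₀| * (|B₀| + C)) := by
    refine (hV.upper (x s) fun i _ => hpos0 i).trans ?_
    have hC := hV.C_nonneg
    calc ∑ i, x s i * (Real.log (x s i) + C) ≤ ∑ _i : Fin d, |B₀| * (|B₀| + C) := by
          refine Finset.sum_le_sum fun j _ => ?_
          have e1 : x s j ≤ |B₀| := (hx0 j).trans (le_abs_self _)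
          have e2 : Real.log (x s j) ≤ x s j := (Real.log_le_sub_one_of_pos (hpos0 j)).trans
            (by linarith)
          calc x s j * (Real.log (x s j) + C) ≤ x s j * (|B₀| + C) :=
                mul_le_mul_of_nonneg_left (by linarith) (hpos0 j).le
            _ ≤ _ := mul_le_mul_of_nonneg_right e1 (by positivity)
      _ = _ := by simp
  exact bound_of_sum C _ (x t) hpos (((hV.lower (x t) (fun i _ => hpos i)).trans h1).trans h2) i

/-- Two-sided a-priori bound: curves from a box stay in a box. -/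
theorem apriori_box (hF : Diss W δ F) (ε₀ B₀ : ℝ) (hε₀ : 0 < ε₀) :
    ∃ κ > 0, ∃ B, ∀ (x : ℝ → Fin d → ℝ) (s t : ℝ), s ≤ t → Curve F x s t →
      (∀ i, ε₀ ≤ x s i ∧ x s i ≤ B₀) → ∀ i, κ ≤ x t i ∧ x t i ≤ B := by
  obtain ⟨B, hB⟩ := apriori_up hF B₀
  have h1 : ∀ i : Fin d, ∃ κ > 0, ∀ (x : ℝ → Fin d → ℝ) (s t : ℝ), s ≤ t →
      Curve F x s t → (∀ i, ε₀ ≤ x s i) → (∀ r ∈ Set.Icc s t, ∀ i, x r i ≤ B) →
      κ ≤ x t i := by
    intro i
    obtain ⟨κ, hκ, h⟩ := apriori_low hF B ε₀ hε₀ _ {i} (Finset.singleton_nonempty i)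
      (Nat.lt_succ_self _)
    refine ⟨κ, hκ, fun x s t ht hx hx0 hxB => ?_⟩
    obtain ⟨j, hj, hj'⟩ := h x s t ht hx hx0 hxB
    rw [Finset.mem_singleton] at hj
    rw [hj] at hj'
    exact hj'
  choose κf hκf hκ using h1
  obtain ⟨κ, hκ0, hκle⟩ := exists_pos_le κf hκf
  refine ⟨κ, hκ0, B, fun x s t ht hx hx0 i => ⟨?_, hB x s t ht hx (fun j => (hx0 j).2) i⟩⟩
  exact (hκle i).trans (hκ i x s t ht hx (fun j => (hx0 j).1)
    (fun r hr j => hB x s r hr.1 (hx.mono le_rfl hr.2) (fun j => (hx0 j).2) j))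

/-- A global curve stays in a box. -/
theorem global_box (hF : Diss W δ F) {x : ℝ → Fin d → ℝ} (hx : ∀ t ≥ 0, Curve F x 0 t) :
    ∃ κ > 0, ∃ B, ∀ t ≥ 0, ∀ i, κ ≤ x t i ∧ x t i ≤ B := by
  have hpos := (hx 0 le_rfl).pos 0 ⟨le_rfl, le_rfl⟩
  obtain ⟨ε₀, hε₀, hle⟩ := exists_pos_le (x 0) hpos
  obtain ⟨κ, hκ, B, h⟩ := apriori_box hF ε₀ (∑ i, x 0 i) hε₀
  exact ⟨κ, hκ, B, fun t ht => h x 0 t ht (hx t ht) fun i => ⟨hle i,
    Finset.single_le_sum (f := x 0) (fun j _ => (hpos j).le) (Finset.mem_univ i)⟩⟩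

/-- If `v` is in the span of `R` with bounded entries and `p · v ≥ 1/2` then
some vector of `R` has a large pairing with `p`. -/
theorem exists_vector_large (R : Finset (Fin d → ℝ)) (M : ℝ) :
    ∃ h > 0, ∀ v ∈ Submodule.span ℝ (R : Set (Fin d → ℝ)), (∀ i, |v i| ≤ M) →
      ∀ p : Fin d → ℝ, 1 / 2 ≤ ∑ i, p i * v i → ∃ r ∈ R, h ≤ |∑ i, p i * r i| := by
  classical
  let w : R → (Fin d → ℝ) := fun r => r.1
  let T : (R → ℝ) →ₗ[ℝ] (Fin d → ℝ) := Fintype.linearCombination ℝ w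
  have hT : LinearMap.range T = Submodule.span ℝ (R : Set (Fin d → ℝ)) := by
    show LinearMap.range (Fintype.linearCombination ℝ w) = _
    rw [Fintype.range_linearCombination]
    congr 1
    ext v
    simp [w]
  obtain ⟨g, hg⟩ := T.rangeRestrict.exists_rightInverse_of_surjective
    (LinearMap.range_rangeRestrict T)
  let g' := g.toContinuousLinearMap
  let Λ : ℝ := ‖g'‖
  have hΛ0 : 0 ≤ Λ := norm_nonneg g'
  let n : ℝ := R.card
  have hn0 : 0 ≤ n := Nat.cast_nonneg _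
  refine ⟨1 / (4 * (Λ * |M| + 1) * (n + 1)), by (clear * -; positivity), ?_⟩
  intro v hv hvM p hp
  by_contra hcon
  push Not at hcon
  have hv' : v ∈ LinearMap.range T := by rw [hT]; exact hv
  set a : R → ℝ := g ⟨v, hv'⟩ with ha
  have hTa : T a = v := by
    have h1 : (T.rangeRestrict ∘ₗ g) ⟨v, hv'⟩ = ⟨v, hv'⟩ := by rw [hg]; rfl
    have h2 := congrArg Subtype.val h1
    exact h2
  have hvn : ‖v‖ ≤ |M| := by
    rw [pi_norm_le_iff_of_nonneg (abs_nonneg M)]
    intro i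
    exact (hvM i).trans (le_abs_self M)
  have han : ∀ r, |a r| ≤ Λ * |M| := by
    intro r
    have h1 : ‖a r‖ ≤ ‖a‖ := norm_le_pi_norm a r
    have h2 : ‖a‖ ≤ Λ * ‖(⟨v, hv'⟩ : LinearMap.range T)‖ := g'.le_opNorm _
    have h3 : ‖(⟨v, hv'⟩ : LinearMap.range T)‖ = ‖v‖ := rfl
    rw [h3] at h2
    calc |a r| ≤ ‖a‖ := h1
      _ ≤ Λ * ‖v‖ := h2
      _ ≤ Λ * |M| := mul_le_mul_of_nonneg_left hvn hΛ0
  have hsum : ∑ i, p i * v i = ∑ r : R, a r * ∑ i, p i * w r i := by
    conv_lhs => rw [← hTa]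
    simp only [T, Fintype.linearCombination_apply, Finset.sum_apply, Pi.smul_apply, smul_eq_mul,
      Finset.mul_sum]
    rw [Finset.sum_comm]
    refine Finset.sum_congr rfl fun r _ => Finset.sum_congr rfl fun i _ => by ring
  have hle : ∑ r : R, a r * ∑ i, p i * w r i ≤
      ∑ r : R, (Λ * |M|) * (1 / (4 * (Λ * |M| + 1) * (n + 1))) := by
    apply Finset.sum_le_sum
    intro r _
    have h1 := hcon r.1 r.2
    calc a r * ∑ i, p i * w r i ≤ |a r * ∑ i, p i * w r i| := le_abs_self _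
      _ = |a r| * |∑ i, p i * w r i| := abs_mul _ _
      _ ≤ (Λ * |M|) * (1 / (4 * (Λ * |M| + 1) * (n + 1))) :=
        mul_le_mul (han r) h1.le (abs_nonneg _) (by (clear * -; positivity))
  rw [Finset.sum_const, nsmul_eq_mul] at hle
  have hcard : ((Finset.univ : Finset R).card : ℝ) = n := by
    simp only [Finset.univ_eq_attach, Finset.card_attach, n]
  rw [hcard] at hle
  have hfin := num_aux n (Λ * |M|) hn0 (by (clear * -; positivity))
  rw [hsum] at hp
  linarith only [hp, hle, hfin]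

/-- Uniform eventual upper bound. -/
theorem eventual_up (hF : Diss W δ F) (hS : SDiss W δ R F)
    (c : Fin d → ℝ) (hc : ∀ i, 0 < c i) :
    ∃ B, ∀ x, (∀ t ≥ 0, Curve F x 0 t) → x 0 - c ∈ Submodule.span ℝ (R : Set (Fin d → ℝ)) →
      ∃ t₀ ≥ 0, ∀ t ≥ t₀, ∀ i, x t i ≤ B := by
  obtain ⟨V, C, hV⟩ := exists_isPot W δ Finset.univ 1 1 one_pos
  refine ⟨max (Real.exp (C + 1)) (V c + 1 + d * Real.exp C), ?_⟩
  intro x hx hx0
  obtain ⟨κ, hκ, B, hbx⟩ := global_box hF hx
  have hpos : ∀ r ≥ 0, ∀ i, 0 < x r i := fun r hr i => lt_of_lt_of_le hκ (hbx r hr i).1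
  have hseg : ∀ s t, 0 ≤ s → s ≤ t → Curve F x s t := fun s t hs hst =>
      (hx t (hs.trans hst)).mono hs le_rfl
  have hreg : ∀ s t : ℝ, ∀ r ∈ Set.Icc s t, ∀ i ∉ (Finset.univ : Finset (Fin d)),
      1 ≤ x r i ∧ x r i ≤ 1 := fun s t r _ i hi => absurd (Finset.mem_univ i) hi
  have hcls : ∀ t ≥ 0, x t - c ∈ Submodule.span ℝ (R : Set (Fin d → ℝ)) := by
    intro t ht
    have h1 := (hx t ht).sub_mem ht _ hS.1
    have h2 := Submodule.add_mem _ h1 hx0
    have : x t - c = x t - x 0 + (x 0 - c) := by abel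
    rw [this]; exact h2
  have hex : ∃ t₀ ≥ 0, V (x t₀) ≤ V c + 1 := by
    by_contra hcon
    push Not at hcon
    obtain ⟨Mc, hMc⟩ : ∃ Mc, ∀ i, |c i| ≤ Mc := by
      refine ⟨∑ i, |c i|, fun i => ?_⟩
      exact Finset.single_le_sum (f := fun i => |c i|) (fun i _ => abs_nonneg _) (Finset.mem_univ i)
    obtain ⟨h, hh, hlarge⟩ := exists_vector_large R (|B| + Mc)
    obtain ⟨ρ, hρ, hstrict⟩ := hS.2 κ hκ B h hh
    have hdec : ∀ t ≥ (0 : ℝ), V (x t) ≤ V (x 0) - ρ * (t - 0) := by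
      intro t ht
      apply hV.decrease_gen ht (hx t ht) (hreg 0 t)
      · intro r hr p _ h2 _ r' hr' hal
        refine hstrict (x r') (hbx r' hr'.1) p hal ?_
        apply hlarge (x r - c) (hcls r hr.1)
        · intro i
          have h5 := hbx r hr.1 i
          have h6 := hMc i
          have h7 : |x r i| ≤ |B| := by
            rw [abs_of_pos (hpos r hr.1 i)]
            exact h5.2.trans (le_abs_self B)
          calc |(x r - c) i| = |x r i - c i| := rfl
            _ ≤ |x r i| + |c i| := abs_sub _ _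
            _ ≤ |B| + Mc := add_le_add h7 h6
        · have h5 := h2 c (fun i _ => hc i)
          have h6 := hcon r hr.1
          have h7 : ∑ i, p i * (x r - c) i = - ∑ i, p i * (c i - x r i) := by
            rw [← Finset.sum_neg_distrib]
            refine Finset.sum_congr rfl fun i _ => ?_
            rw [Pi.sub_apply]; ring
          rw [h7]
          linarith only [h5, h6]
    refine no_linear_decrease hρ (s := 0) (v := fun t => V (x t)) (A := -(d * Real.exp C))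
      hdec ?_
    intro t ht
    exact (sum_ge Finset.univ C (x t) (fun i _ => hpos t ht i)).trans
      (hV.lower (x t) (fun i _ => hpos t ht i))
  obtain ⟨t₀, ht₀, hVt₀⟩ := hex
  refine ⟨t₀, ht₀, fun t ht i => ?_⟩
  have h1 := hV.decrease hF ht (hseg t₀ t ht₀ ht) (hreg t₀ t)
  have hpt := hpos t (ht₀.trans ht)
  exact bound_of_sum C _ (x t) hpt
    (((hV.lower (x t) (fun i _ => hpt i)).trans h1).trans hVt₀) i

/-- Uniform eventual lower bounds, by downward induction. -/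
theorem eventual_low (hF : Diss W δ F) (hS : SDiss W δ R F)
    (c : Fin d → ℝ) (hc : ∀ i, 0 < c i) (B : ℝ)
    (hB : ∀ x, (∀ t ≥ 0, Curve F x 0 t) → x 0 - c ∈ Submodule.span ℝ (R : Set (Fin d → ℝ)) →
      ∃ t₀ ≥ 0, ∀ t ≥ t₀, ∀ i, x t i ≤ B) :
    ∀ (n : ℕ) (I : Finset (Fin d)), I.Nonempty → Iᶜ.card < n →
      ∃ κ > 0, ∀ x, (∀ t ≥ 0, Curve F x 0 t) → x 0 - c ∈ Submodule.span ℝ (R : Set (Fin d → ℝ)) →
        ∃ t₀ ≥ 0, ∀ t ≥ t₀, ∃ i ∈ I, κ ≤ x t i := by
  intro n
  induction n with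
  | zero => intro I _ h; exact absurd h (Nat.not_lt_zero _)
  | succ n ih =>
    intro I hI hIn
    have hstep : ∀ j : Fin d, ∃ κ > 0, j ∉ I → ∀ x, (∀ t ≥ 0, Curve F x 0 t) →
        x 0 - c ∈ Submodule.span ℝ (R : Set (Fin d → ℝ)) → ∃ t₀ ≥ 0, ∀ t ≥ t₀, ∃ i ∈ insert j I, κ ≤ x t i := by
      intro j
      by_cases hj : j ∈ I
      · exact ⟨1, one_pos, fun h => absurd hj h⟩
      · have hcard : (insert j I)ᶜ.card < n := by
          have h1 : (insert j I)ᶜ ⊂ Iᶜ := by
            rw [Finset.compl_ssubset_compl]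
            exact Finset.ssubset_insert hj
          have := Finset.card_lt_card h1
          omega
        obtain ⟨κ, hκ, h⟩ := ih (insert j I) (Finset.insert_nonempty _ _) hcard
        exact ⟨κ, hκ, fun _ => h⟩
    choose κf hκf hκ using hstep
    obtain ⟨κ', hκ', hκ'le⟩ := exists_pos_le κf hκf
    obtain ⟨V, C, hV⟩ := exists_isPot W δ I κ' B hκ'
    obtain ⟨cm, hcm0, hcm⟩ := exists_pos_le c hc
    -- choose ε
    obtain ⟨ε, hε0, hε1, hε2, hε3, hε4⟩ : ∃ ε : ℝ, 0 < ε ∧ ε < κ' ∧ ε ≤ cm / 2 ∧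
        Real.log ε + C < 0 ∧ Real.log ε + C ≤ -(1 / cm) := by
      obtain ⟨e, he, hle⟩ := exists_pos_le (ι := Fin 4)
        ![κ' / 2, cm / 2, Real.exp (-C - 1), Real.exp (-C - 1 / cm)] (by
        intro i; fin_cases i
        · show 0 < κ' / 2; linarith only [hκ']
        · show 0 < cm / 2; linarith only [hcm0]
        · exact Real.exp_pos _
        · exact Real.exp_pos _)
      refine ⟨e, he, ?_, hle 1, ?_, ?_⟩
      · have := hle 0
        simp only [Matrix.cons_val_zero] at this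
        linarith only [he, this]
      · have h2 : e ≤ Real.exp (-C - 1) := hle 2
        have h3 : Real.log e ≤ -C - 1 := (Real.log_le_iff_le_exp he).mpr h2
        linarith only [h3]
      · have h2 : e ≤ Real.exp (-C - 1 / cm) := hle 3
        have h3 : Real.log e ≤ -C - 1 / cm := (Real.log_le_iff_le_exp he).mpr h2
        linarith only [h3]
    obtain ⟨κ, hκ0, hex⟩ := exit_lemma hV hF hε0 hε3
    refine ⟨κ, hκ0, ?_⟩
    intro x hx hx0
    obtain ⟨κx, hκx, Bx, hbx⟩ := global_box hF hx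
    have hpos : ∀ r ≥ 0, ∀ i, 0 < x r i := fun r hr i => lt_of_lt_of_le hκx (hbx r hr i).1
    have hseg : ∀ s t, 0 ≤ s → s ≤ t → Curve F x s t := fun s t hs hst =>
      (hx t (hs.trans hst)).mono hs le_rfl
    have hcls : ∀ t ≥ 0, x t - c ∈ Submodule.span ℝ (R : Set (Fin d → ℝ)) := by
      intro t ht
      have h1 := (hx t ht).sub_mem ht _ hS.1
      have h2 := Submodule.add_mem _ h1 hx0
      have : x t - c = x t - x 0 + (x 0 - c) := by abel
      rw [this]; exact h2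
    -- a common time after which all earlier bounds hold
    obtain ⟨t₁, ht₁, hall⟩ : ∃ t₁ ≥ (0 : ℝ), ∀ t ≥ t₁, (∀ i, x t i ≤ B) ∧
        ∀ j ∉ I, ∃ i ∈ insert j I, κf j ≤ x t i := by
      obtain ⟨tB, htB, hBt⟩ := hB x hx hx0
      have h1 : ∀ j : Fin d, ∃ tj : ℝ, j ∉ I → ∀ t ≥ tj, ∃ i ∈ insert j I, κf j ≤ x t i := by
        intro j
        by_cases hj : j ∈ I
        · exact ⟨0, fun h => absurd hj h⟩
        · obtain ⟨tj, _, h⟩ := hκ j hj x hx hx0
          exact ⟨tj, fun _ => h⟩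
      choose tj htj using h1
      refine ⟨tB + ∑ j, |tj j|, by (clear * - htB; positivity), fun t ht => ⟨?_, ?_⟩⟩
      · apply hBt t
        have : 0 ≤ ∑ j, |tj j| := Finset.sum_nonneg fun _ _ => abs_nonneg _
        linarith only [ht, this]
      · intro j hj
        apply htj j hj t
        have h2 : |tj j| ≤ ∑ j, |tj j| :=
          Finset.single_le_sum (f := fun j => |tj j|) (fun i _ => abs_nonneg _)
            (Finset.mem_univ j)
        have h3 := le_abs_self (tj j)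
        linarith only [htB, ht, h2, h3]
    have hreg' : ∀ r ≥ t₁, (∀ i ∈ I, x r i ≤ ε) → ∀ i ∉ I, κ' ≤ x r i ∧ x r i ≤ B := by
      intro r hr hrI j hj
      obtain ⟨h1, h2⟩ := hall r hr
      refine ⟨?_, h1 j⟩
      obtain ⟨i, hi, hi'⟩ := h2 j hj
      rcases Finset.mem_insert.mp hi with h | h
      · rw [h] at hi'
        exact (hκ'le j).trans hi'
      · exfalso
        have h1 := hrI i h
        have h2 := hκ'le j
        linarith only [hε1, hi', h1, h2]
    have hvisit : ∃ s ≥ t₁, ∃ i ∈ I, ε ≤ x s i := by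
      by_contra hcon
      push Not at hcon
      obtain ⟨Mc, hMc⟩ : ∃ Mc, ∀ i, |c i| ≤ Mc := by
        refine ⟨∑ i, |c i|, fun i => ?_⟩
        exact Finset.single_le_sum (f := fun i => |c i|) (fun i _ => abs_nonneg _)
          (Finset.mem_univ i)
      obtain ⟨h, hh, hlarge⟩ := exists_vector_large R (|Bx| + Mc)
      obtain ⟨ρ, hρ, hstrict⟩ := hS.2 κx hκx Bx h hh
      have hdec : ∀ t ≥ t₁, V (x t) ≤ V (x t₁) - ρ * (t - t₁) := by
        intro t ht
        apply hV.decrease_gen ht (hseg t₁ t ht₁ ht)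
          (fun r hr => hreg' r hr.1 (fun i hi => (hcon r hr.1 i hi).le))
        · intro r hr p hp0 _ h3 r' hr' hal
          refine hstrict (x r') (hbx r' (ht₁.trans hr'.1)) p hal ?_
          have hr0 : 0 ≤ r := ht₁.trans hr.1
          apply hlarge (x r - c) (hcls r hr0)
          · intro i
            have h5 := hbx r hr0 i
            have h6 := hMc i
            have h7 : |x r i| ≤ |Bx| := by
              rw [abs_of_pos (hpos r hr0 i)]
              exact h5.2.trans (le_abs_self Bx)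
            calc |(x r - c) i| = |x r i - c i| := rfl
              _ ≤ |x r i| + |c i| := abs_sub _ _
              _ ≤ |Bx| + Mc := add_le_add h7 h6
          · -- p · (x - c) ≥ 1/2
            have h7 : ∑ i, p i * (x r - c) i = ∑ i ∈ I, p i * (x r - c) i := by
              symm
              apply Finset.sum_subset (Finset.subset_univ I)
              intro i _ hi
              rw [hp0 i hi, zero_mul]
            rw [h7]
            have hterm : ∀ i ∈ I, 1 / 2 ≤ p i * (x r - c) i := by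
              intro i hi
              have h8 := hcon r hr.1 i hi
              have h9 : Real.log (x r i) ≤ Real.log ε := Real.log_le_log (hpos r hr0 i) h8.le
              have h10 := (abs_le.mp (h3 i hi)).2
              have h11 : p i ≤ -(1 / cm) := by linarith only [hε4, h9, h10]
              have h12 : (x r - c) i ≤ -(cm / 2) := by
                have := hcm i
                rw [Pi.sub_apply]; linarith only [hε2, h8, this]
              have h13 : 0 < 1 / cm := by positivity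
              have h14 : (1 / cm) * (cm / 2) ≤ (-p i) * (-(x r - c) i) :=
                mul_le_mul (by linarith only [hε4, h9, h10]) (by linarith only [h12]) (by positivity) (by linarith only [hε3, h9, h10])
              have h15 : (1 / cm) * (cm / 2) = 1 / 2 := by field_simp
              linarith only [h14, h15]
            obtain ⟨i₀, hi₀⟩ := hI
            have h8 := Finset.single_le_sum (f := fun i => p i * (x r - c) i)
              (fun i hi => le_trans (by norm_num) (hterm i hi)) hi₀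
            exact (hterm i₀ hi₀).trans h8
      refine no_linear_decrease hρ (s := t₁) (v := fun t => V (x t)) (A := -(d * Real.exp C))
        hdec ?_
      intro t ht
      exact (sum_ge I C (x t) (fun i _ => hpos t (ht₁.trans ht) i)).trans
        (hV.lower (x t) (fun i _ => hpos t (ht₁.trans ht) i))
    obtain ⟨s, hs, hsI⟩ := hvisit
    refine ⟨s, ht₁.trans hs, fun t ht => ?_⟩
    exact hex x s t ht (hseg s t (ht₁.trans hs) ht) (fun r hr => hreg' r (hs.trans hr.1)) hsI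

/-- Uniform eventual box: permanence of strictly dissipative inclusions. -/
theorem eventual_box (hF : Diss W δ F) (hS : SDiss W δ R F) (c : Fin d → ℝ)
    (hc : ∀ i, 0 < c i) :
    ∃ κ > 0, ∃ B, ∀ x : ℝ → Fin d → ℝ, (∀ t ≥ 0, Curve F x 0 t) →
      x 0 - c ∈ Submodule.span ℝ (R : Set (Fin d → ℝ)) →
      ∃ t₀ ≥ 0, ∀ t ≥ t₀, ∀ i, κ ≤ x t i ∧ x t i ≤ B := by
  obtain ⟨B, hB⟩ := eventual_up hF hS c hc
  have h1 : ∀ i : Fin d, ∃ κ > 0, ∀ x : ℝ → Fin d → ℝ, (∀ t ≥ 0, Curve F x 0 t) →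
      x 0 - c ∈ Submodule.span ℝ (R : Set (Fin d → ℝ)) → ∃ t₀ ≥ 0, ∀ t ≥ t₀, κ ≤ x t i := by
    intro i
    obtain ⟨κ, hκ, h⟩ := eventual_low hF hS c hc B hB _ {i}
      (Finset.singleton_nonempty i) (Nat.lt_succ_self _)
    refine ⟨κ, hκ, fun x hx hx0 => ?_⟩
    obtain ⟨t₀, ht₀, h'⟩ := h x hx hx0
    refine ⟨t₀, ht₀, fun t ht => ?_⟩
    obtain ⟨j, hj, hj'⟩ := h' t ht
    rw [Finset.mem_singleton] at hj
    rw [hj] at hj'
    exact hj'
  choose κf hκf hκ using h1
  obtain ⟨κ, hκ0, hκle⟩ := exists_pos_le κf hκf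
  refine ⟨κ, hκ0, B, fun x hx hx0 => ?_⟩
  obtain ⟨tB, htB, hBt⟩ := hB x hx hx0
  choose ti hti0 hti using fun i => hκ i x hx hx0
  have hsum : 0 ≤ ∑ j, ti j := Finset.sum_nonneg fun j _ => hti0 j
  refine ⟨tB + ∑ j, ti j, by linarith, fun t ht i =>
    ⟨(hκle i).trans (hti i t ?_), hBt t (by linarith) i⟩⟩
  have h3 : ti i ≤ ∑ j, ti j :=
    Finset.single_le_sum (f := ti) (fun j _ => hti0 j) (Finset.mem_univ i)
  linarith only [htB, ht, h3]

end Vale.Agent.N072R
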