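import Vale.Agent.P072.Bdl.B1

set_option linter.all false

section

section

/-! Combinatorial part of the potential: hierarchical exponents. -/

namespace Vale.Agent.N072R.Pot

open Finset
open Vale.Agent.P072.Pot (young sum_lower exp_one_lt_three extR extR_coe extR_of_lt exists_sort
  extR_antitone exists_small)

/-- partial dot product of two real sequences -/
def dot (v : ℕ → ℝ) (p : ℕ → ℝ) (k : ℕ) : ℝ := ∑ i ∈ range k, v i * p i

/-- parameters of the construction -/
structure Params where
  n : ℕ
  A : ℕ → Set ℝ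
  m : ℕ → ℝ
  T : ℝ
  D : ℝ
  hA0 : ∀ k, (0 : ℝ) ∈ A k
  hA1 : ∀ k, (1 : ℝ) ∈ A k
  hA1' : ∀ k, (-1 : ℝ) ∈ A k
  hA2 : ∀ k < n, ∀ a ∈ A (k + 1), ∀ b ∈ A (k + 1), ∀ x ∈ A (k + 1), ∀ y ∈ A (k + 1),
    a * x - b * y ∈ A k
  hAD : ∀ k, ∀ a ∈ A k, |a| ≤ D
  hAD' : ∀ k, ∀ a ∈ A k, a ≠ 0 → 1 ≤ D * |a|
  hm : ∀ k < n, m k = m (k + 1) * m (k + 1)
  hmM : ∀ k ≤ n, 3 * D ^ (n + 2) ≤ m k
  hT : 1 ≤ T

variable (P : Params)

lemma Params.D_ge_one : 1 ≤ P.D := by
  have h1 := P.hAD 0 1 (P.hA1 0)
  rwa [abs_one] at h1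

lemma Params.m_ge_three {k : ℕ} (hk : k ≤ P.n) : 3 ≤ P.m k := by
  have h1 : (1 : ℝ) ≤ P.D ^ (P.n + 2) := one_le_pow₀ P.D_ge_one
  linarith only [h1, P.hmM k hk]

/-- `q` is a critical value for position `k`, given the entries before `k`. -/
def Crit (p : ℕ → ℝ) (k : ℕ) (q : ℝ) : Prop :=
  ∃ v : ℕ → ℝ, (∀ i, v i ∈ P.A (k + 1)) ∧ v k ≠ 0 ∧ dot v p k + v k * q = 0

open Classical in
/-- the error scale before position `k` -/
noncomputable def scale (p : ℕ → ℝ) : ℕ → ℝ
  | 0 => P.T
  | k + 1 => if Crit P p k (p k) then scale p k * P.m (k + 1) else scale p k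

/-- thickness at position `k` -/
noncomputable def tau (p : ℕ → ℝ) (k : ℕ) : ℝ := scale P p k * P.m (k + 1)

/-- allowed values at position `k` -/
def Allowed (p : ℕ → ℝ) (k : ℕ) (z : ℝ) : Prop :=
  Crit P p k z ∨ ∀ q, Crit P p k q → tau P p k ≤ |z - q|

/-- valid initial segment of length `k` -/
def ValidTo (p : ℕ → ℝ) (k : ℕ) : Prop :=
  ∀ j < k, (∀ i, i + 1 = j → p j ≤ p i) ∧ Allowed P p j (p j)

/-! ### Congruence -/

lemma dot_congr {v : ℕ → ℝ} {p q : ℕ → ℝ} {k : ℕ} (h : ∀ i < k, p i = q i) :
    dot v p k = dot v q k := by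
  unfold dot
  exact sum_congr rfl fun i hi => by rw [h i (mem_range.1 hi)]

lemma crit_congr {p q : ℕ → ℝ} {k : ℕ} (h : ∀ i < k, p i = q i) (z : ℝ) :
    Crit P p k z ↔ Crit P q k z := by
  unfold Crit
  simp only [dot_congr h]

lemma scale_congr {p q : ℕ → ℝ} {k : ℕ} (h : ∀ i < k, p i = q i) :
    scale P p k = scale P q k := by
  induction k with
  | zero => rfl
  | succ k ih =>
    have ih' := ih fun i hi => h i (by omega)
    have hc := crit_congr P (p := p) (q := q) (k := k) (fun i hi => h i (by omega)) (p k)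
    have hk : p k = q k := h k (by omega)
    unfold scale
    rw [ih']
    by_cases hcr : Crit P p k (p k)
    · have : Crit P q k (q k) := by rw [← hk]; exact hc.1 hcr
      simp [hcr, this]
    · have : ¬ Crit P q k (q k) := by rw [← hk]; exact fun hh => hcr (hc.2 hh)
      simp [hcr, this]

lemma tau_congr {p q : ℕ → ℝ} {k : ℕ} (h : ∀ i < k, p i = q i) :
    tau P p k = tau P q k := by
  unfold tau; rw [scale_congr P h]

lemma allowed_congr {p q : ℕ → ℝ} {k : ℕ} (h : ∀ i < k, p i = q i) (z : ℝ) :
    Allowed P p k z ↔ Allowed P q k z := by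
  unfold Allowed
  simp only [crit_congr P h, tau_congr P h]

lemma validTo_congr {p q : ℕ → ℝ} {k : ℕ} (h : ∀ i < k, p i = q i) (hp : ValidTo P p k) :
    ValidTo P q k := by
  intro j hj
  obtain ⟨h1, h2⟩ := hp j hj
  refine ⟨fun i hi => ?_, ?_⟩
  · rw [← h j hj, ← h i (by omega)]; exact h1 i hi
  · rw [← h j hj]
    exact (allowed_congr P (fun i hi => h i (by omega)) _).1 h2

lemma ValidTo.mono {p : ℕ → ℝ} {k l : ℕ} (hp : ValidTo P p k) (h : l ≤ k) : ValidTo P p l :=
  fun j hj => hp j (by omega)

lemma ValidTo.antitone {p : ℕ → ℝ} {k : ℕ} (hp : ValidTo P p k) {i j : ℕ} (hij : i ≤ j)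
    (hj : j < k) : p j ≤ p i := by
  induction j with
  | zero => simp at hij; subst hij; rfl
  | succ j ih =>
    rcases Nat.lt_or_ge i (j + 1) with h | h
    · exact ((hp (j + 1) hj).1 j rfl).trans (ih (by omega) (by omega))
    · have : i = j + 1 := by omega
      subst this; rfl

lemma validTo_succ {p : ℕ → ℝ} {k : ℕ} (hp : ValidTo P p k) {z : ℝ} (hz : Allowed P p k z)
    (hz2 : ∀ i, i + 1 = k → z ≤ p i) : ValidTo P (Function.update p k z) (k + 1) := by
  have hcongr : ∀ i < k, p i = Function.update p k z i := fun i hi => by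
    rw [Function.update_of_ne (by omega)]
  intro j hj
  rcases Nat.lt_or_ge j k with h | h
  · exact validTo_congr P hcongr hp j h
  · have hjk : j = k := by omega
    subst hjk
    refine ⟨fun i hi => ?_, ?_⟩
    · rw [Function.update_self, Function.update_of_ne (by omega)]
      exact hz2 i hi
    · rw [Function.update_self]
      exact (allowed_congr P hcongr _).1 hz

/-! ### Scales -/

lemma scale_pos_aux (p : ℕ → ℝ) {k : ℕ} (hk : k ≤ P.n) : P.T ≤ scale P p k := by
  induction k with
  | zero => exact le_refl _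
  | succ k ih =>
    have ih' := ih (by omega)
    have hm := P.m_ge_three hk
    have hT := P.hT
    unfold scale
    split_ifs
    · nlinarith only [ih', hm, hT]
    · exact ih'

lemma scale_ge_one (p : ℕ → ℝ) {k : ℕ} (hk : k ≤ P.n) : 1 ≤ scale P p k :=
  P.hT.trans (scale_pos_aux P p hk)

lemma scale_mono_succ (p : ℕ → ℝ) {k : ℕ} (hk : k < P.n) :
    scale P p k ≤ scale P p (k + 1) := by
  have hm := P.m_ge_three (k := k + 1) hk
  have h1 := scale_ge_one P p (k := k) (by omega)
  conv_rhs => unfold scale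
  split_ifs
  · nlinarith only [hm, h1]
  · exact le_refl _

lemma scale_mono (p : ℕ → ℝ) {i j : ℕ} (hij : i ≤ j) (hj : j ≤ P.n) :
    scale P p i ≤ scale P p j := by
  induction j with
  | zero => simp at hij; subst hij; rfl
  | succ j ih =>
    rcases Nat.lt_or_ge i (j + 1) with h | h
    · exact (ih (by omega) (by omega)).trans (scale_mono_succ P p (by omega))
    · have : i = j + 1 := by omega
      subst this; rfl

lemma scale_le_tau (p : ℕ → ℝ) {k : ℕ} (hk : k < P.n) : scale P p k ≤ tau P p k := by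
  have hm := P.m_ge_three (k := k + 1) hk
  have h1 := scale_ge_one P p (k := k) (by omega)
  unfold tau
  nlinarith only [hm, h1]

lemma tau_ge_three (p : ℕ → ℝ) {k : ℕ} (hk : k < P.n) : 3 ≤ tau P p k := by
  have hm := P.m_ge_three (k := k + 1) hk
  have h1 := scale_ge_one P p (k := k) (by omega)
  unfold tau
  nlinarith only [hm, h1]

lemma scale_succ_of_crit {p : ℕ → ℝ} {k : ℕ} (h : Crit P p k (p k)) :
    scale P p (k + 1) = tau P p k := by
  unfold scale tau
  simp [h]

lemma scale_succ_of_not_crit {p : ℕ → ℝ} {k : ℕ} (h : ¬ Crit P p k (p k)) :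
    scale P p (k + 1) = scale P p k := by
  conv_lhs => unfold scale
  simp [h]

lemma scale_step (p : ℕ → ℝ) {k : ℕ} (hk : k < P.n) :
    scale P p (k + 1) * P.m (k + 1) ≤ scale P p k * P.m k := by
  have hm := P.m_ge_three (k := k + 1) hk
  have h1 := scale_ge_one P p (k := k) (by omega)
  have hmk := P.hm k (by omega)
  by_cases hc : Crit P p k (p k)
  · rw [scale_succ_of_crit P hc, hmk]
    unfold tau
    exact le_of_eq (mul_assoc _ _ _)
  · rw [scale_succ_of_not_crit P hc, hmk]
    have : P.m (k + 1) ≤ P.m (k + 1) * P.m (k + 1) := by nlinarith only [hm]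
    exact mul_le_mul_of_nonneg_left this (by linarith only [h1])

/-- `scale k * m k` is nonincreasing. -/
lemma scale_mul_m_le (p : ℕ → ℝ) {k : ℕ} (hk : k ≤ P.n) :
    scale P p k * P.m k ≤ P.T * P.m 0 := by
  induction k with
  | zero => exact le_refl _
  | succ k ih => exact (scale_step P p (by omega)).trans (ih (by omega))

/-- the maximal thickness -/
noncomputable def Params.tmax : ℝ := P.T * P.m 0

lemma tau_le_tmax (p : ℕ → ℝ) {k : ℕ} (hk : k < P.n) : tau P p k ≤ P.tmax := by
  have h := scale_mul_m_le P p (k := k) (by omega)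
  have hm := P.m_ge_three (k := k + 1) hk
  have h1 := scale_ge_one P p (k := k) (by omega)
  have hmk := P.hm k (by omega)
  unfold tau Params.tmax
  refine le_trans ?_ h
  rw [hmk]
  have : P.m (k + 1) ≤ P.m (k + 1) * P.m (k + 1) := by nlinarith only [hm]
  exact mul_le_mul_of_nonneg_left this (by linarith only [h1])

/-! ### Separation -/

lemma dot_elim (u v : ℕ → ℝ) (p : ℕ → ℝ) (k : ℕ) (a b : ℝ) :
    dot (fun i => a * v i - b * u i) p k = a * dot v p k - b * dot u p k := by
  unfold dot
  rw [mul_sum, mul_sum, ← sum_sub_distrib]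
  refine sum_congr rfl fun i _ => ?_
  ring

lemma dot_succ (v : ℕ → ℝ) (p : ℕ → ℝ) (k : ℕ) : dot v p (k + 1) = dot v p k + v k * p k := by
  unfold dot; rw [sum_range_succ]

/-- Separation: relations on a valid initial segment vanish or are large. -/
lemma sep {p : ℕ → ℝ} {k : ℕ} (hk : k ≤ P.n) (hp : ValidTo P p k) (v : ℕ → ℝ)
    (hv : ∀ i, v i ∈ P.A k) :
    dot v p k = 0 ∨ scale P p k * P.m k / P.D ^ k ≤ |dot v p k| := by
  induction k generalizing v with
  | zero => left; simp [dot]
  | succ k ih =>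
    have hk' : k < P.n := by omega
    have ih' := ih (by omega) (hp.mono P (by omega))
    have hm := P.m_ge_three hk
    have hm0 := P.m_ge_three (k := k) (by omega)
    have h1 := scale_ge_one P p (k := k) (by omega)
    have hmk := P.hm k (by omega)
    have hD := P.D_ge_one
    have hDk : (1 : ℝ) ≤ P.D ^ k := one_le_pow₀ hD
    have hDk1 : (1 : ℝ) ≤ P.D ^ (k + 1) := one_le_pow₀ hD
    have hB2 := P.hA2 k hk'
    -- scale (k+1) * m (k+1) ≤ scale k * m k
    have hstep := scale_step P p hk'
    have hpos1 : 0 ≤ scale P p (k + 1) * P.m (k + 1) := by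
      have := scale_ge_one P p (k := k + 1) hk
      (clear * - this hm; positivity)
    rw [dot_succ]
    by_cases hvk : v k = 0
    · -- last entry zero
      have hv' : ∀ i, v i ∈ P.A k := fun i => by
        have := hB2 1 (P.hA1 _) 0 (P.hA0 _) (v i) (hv i) 0 (P.hA0 _)
        simpa using this
      rcases ih' v hv' with h | h
      · left; rw [h, hvk]; simp
      · right
        rw [hvk]
        simp only [zero_mul, add_zero]
        refine le_trans ?_ h
        rw [div_le_div_iff₀ (by positivity) (by positivity)]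
        calc scale P p (k + 1) * P.m (k + 1) * P.D ^ k
            ≤ scale P p k * P.m k * P.D ^ k := by (clear * - hstep hD; gcongr)
          _ ≤ scale P p k * P.m k * P.D ^ (k + 1) := by
              have : P.D ^ k ≤ P.D ^ (k + 1) := pow_le_pow_right₀ hD (by omega)
              have h0 : 0 ≤ scale P p k * P.m k := by positivity
              exact mul_le_mul_of_nonneg_left this h0
    · by_cases hc : Crit P p k (p k)
      · -- eliminate with the relation
        obtain ⟨u, hu, huk, hudot⟩ := hc
        by_cases hz : dot v p k + v k * p k = 0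
        · left; exact hz
        · right
          have hb : ∀ i, (fun i => u k * v i - v k * u i) i ∈ P.A k := fun i =>
            hB2 _ (hu k) _ (hv k) _ (hv i) _ (hu i)
          have hdot : dot (fun i => u k * v i - v k * u i) p k
              = u k * (dot v p k + v k * p k) := by
            rw [dot_elim]
            have : dot u p k = - (u k * p k) := by linarith only [hudot]
            rw [this]; ring
          have hne : dot (fun i => u k * v i - v k * u i) p k ≠ 0 := by
            rw [hdot]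
            exact mul_ne_zero huk hz
          have h := (ih' _ hb).resolve_left hne
          rw [hdot, abs_mul] at h
          have huD : |u k| ≤ P.D := P.hAD _ _ (hu k)
          have h3 : scale P p k * P.m k / P.D ^ k ≤ P.D * |dot v p k + v k * p k| :=
            h.trans (mul_le_mul_of_nonneg_right huD (abs_nonneg _))
          rw [div_le_iff₀ (by positivity)] at h3
          rw [div_le_iff₀ (by positivity)]
          refine hstep.trans (h3.trans (le_of_eq ?_))
          rw [pow_succ]; ring
      · -- not critical: validity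
        right
        have hval := (hp k (by omega)).2
        have hq : Crit P p k (-(dot v p k) / v k) := by
          refine ⟨v, hv, hvk, ?_⟩
          field_simp
          ring
        have hd : tau P p k ≤ |p k - (-(dot v p k) / v k)| := by
          rcases hval with h | h
          · exact absurd h hc
          · exact h _ hq
        have hv1 : 1 ≤ P.D * |v k| := P.hAD' _ _ (hv k) hvk
        have heq : dot v p k + v k * p k = v k * (p k - (-(dot v p k) / v k)) := by
          field_simp
          ring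
        rw [heq, abs_mul]
        have ht3 := tau_ge_three P p hk'
        have h4 : tau P p k ≤ P.D * (|v k| * |p k - (-(dot v p k) / v k)|) := by
          calc tau P p k ≤ |p k - (-(dot v p k) / v k)| := hd
            _ = 1 * |p k - (-(dot v p k) / v k)| := (one_mul _).symm
            _ ≤ (P.D * |v k|) * |p k - (-(dot v p k) / v k)| :=
              mul_le_mul_of_nonneg_right hv1 (abs_nonneg _)
            _ = _ := mul_assoc _ _ _
        have h5 : scale P p (k + 1) * P.m (k + 1) = tau P p k := by
          rw [scale_succ_of_not_crit P hc]; rfl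
        rw [h5, div_le_iff₀ (by positivity)]
        refine h4.trans ?_
        rw [mul_comm]
        refine mul_le_mul_of_nonneg_left ?_ (by positivity)
        exact le_self_pow₀ hD (by omega)

/-- Distinct critical values are far apart. -/
lemma sep_crit {p : ℕ → ℝ} {k : ℕ} (hk : k < P.n) (hp : ValidTo P p k) {q q' : ℝ}
    (hq : Crit P p k q) (hq' : Crit P p k q') (hne : q ≠ q') :
    2 * tau P p k + 1 ≤ |q - q'| := by
  obtain ⟨v, hv, hvk, hvdot⟩ := hq
  obtain ⟨u, hu, huk, hudot⟩ := hq'
  have hB2 := P.hA2 k hk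
  have hb : ∀ i, (fun i => u k * v i - v k * u i) i ∈ P.A k := fun i =>
    hB2 _ (hu k) _ (hv k) _ (hv i) _ (hu i)
  have hdot : dot (fun i => u k * v i - v k * u i) p k = (u k * v k) * (q' - q) := by
    rw [dot_elim]
    have h1 : dot u p k = - (u k * q') := by linarith only [hudot]
    have h2 : dot v p k = - (v k * q) := by linarith only [hvdot]
    rw [h1, h2]; ring
  have hne' : dot (fun i => u k * v i - v k * u i) p k ≠ 0 := by
    rw [hdot]
    exact mul_ne_zero (mul_ne_zero huk hvk)
      (sub_ne_zero.2 (Ne.symm hne))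
  have h := (sep P (by omega) hp _ hb).resolve_left hne'
  rw [hdot, abs_mul, abs_mul] at h
  have hD := P.D_ge_one
  have hbd : ∀ w : ℕ → ℝ, (∀ i, w i ∈ P.A (k + 1)) → |w k| ≤ P.D := fun w hw =>
    P.hAD _ _ (hw k)
  have huD := hbd u hu
  have hvD := hbd v hv
  have h3 : scale P p k * P.m k / P.D ^ k ≤ P.D * P.D * |q' - q| := by
    refine h.trans ?_
    (clear * - huD hvD hvk hD hne; gcongr)
  have hDk : (1 : ℝ) ≤ P.D ^ k := one_le_pow₀ hD
  rw [div_le_iff₀ (by positivity)] at h3
  have hmM := P.hmM (k + 1) (by omega)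
  have htau : tau P p k * P.m (k + 1) = scale P p k * P.m k := by
    rw [P.hm k hk]; unfold tau; ring
  have ht := tau_ge_three P p hk
  have hpow : P.D ^ (k + 2) ≤ P.D ^ (P.n + 2) := pow_le_pow_right₀ hD (by omega)
  have h4 : tau P p k * (3 * P.D ^ (P.n + 2)) ≤ P.D ^ (P.n + 2) * |q' - q| := by
    calc tau P p k * (3 * P.D ^ (P.n + 2)) ≤ tau P p k * P.m (k + 1) := by (clear * - hmM ht; gcongr)
      _ = scale P p k * P.m k := htau
      _ ≤ P.D * P.D * |q' - q| * P.D ^ k := h3
      _ = P.D ^ (k + 2) * |q' - q| := by ring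
      _ ≤ P.D ^ (P.n + 2) * |q' - q| := by (clear * - hpow hne; gcongr)
  have hDn : (0 : ℝ) < P.D ^ (P.n + 2) := by (clear * - hD; positivity)
  have h5 : 3 * tau P p k ≤ |q' - q| := by
    have : P.D ^ (P.n + 2) * (3 * tau P p k) ≤ P.D ^ (P.n + 2) * |q' - q| := by linarith only [h4]
    exact le_of_mul_le_mul_left this hDn
  rw [abs_sub_comm]
  linarith only [ht, h5]

/-- the previous entry is critical -/
lemma crit_prev (p : ℕ → ℝ) (k : ℕ) : Crit P p (k + 1) (p k) := by
  refine ⟨fun i => if i = k then 1 else if i = k + 1 then -1 else 0, fun i => ?_, ?_, ?_⟩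
  · dsimp only
    split_ifs
    · exact P.hA1 _
    · exact P.hA1' _
    · exact P.hA0 _
  · simp
  · rw [dot_succ]
    have : dot (fun i => if i = k then (1 : ℝ) else if i = k + 1 then -1 else 0) p k = 0 := by
      unfold dot
      refine sum_eq_zero fun i hi => ?_
      have hi' := mem_range.1 hi
      have h1 : i ≠ k := by omega
      have h2 : i ≠ k + 1 := by omega
      simp [h1, h2]
    rw [this]
    simp

end Vale.Agent.N072R.Pot
end
end

section

section

/-! Elementary moves on valid initial segments. -/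

namespace Vale.Agent.N072R.Pot

open Finset
open Vale.Agent.P072.Pot (young sum_lower exp_one_lt_three extR extR_coe extR_of_lt exists_sort
  extR_antitone exists_small)

variable (P : Params)

open Classical in
/-- thickness bonus at value `z` -/
noncomputable def bon (p : ℕ → ℝ) (k : ℕ) (z : ℝ) : ℝ :=
  if Crit P p k z then tau P p k else 0

lemma bon_of_crit {p : ℕ → ℝ} {k : ℕ} {z : ℝ} (h : Crit P p k z) :
    bon P p k z = tau P p k := by unfold bon; simp [h]

lemma bon_of_not_crit {p : ℕ → ℝ} {k : ℕ} {z : ℝ} (h : ¬ Crit P p k z) :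
    bon P p k z = 0 := by unfold bon; simp [h]

lemma bon_congr {p q : ℕ → ℝ} {k : ℕ} (h : ∀ i < k, p i = q i) (z : ℝ) :
    bon P p k z = bon P q k z := by
  by_cases hc : Crit P p k z
  · rw [bon_of_crit P hc, bon_of_crit P ((crit_congr P h z).1 hc), tau_congr P h]
  · rw [bon_of_not_crit P hc, bon_of_not_crit P (fun hh => hc ((crit_congr P h z).2 hh))]

lemma bon_nonneg (p : ℕ → ℝ) {k : ℕ} (hk : k < P.n) (z : ℝ) : 0 ≤ bon P p k z := by
  unfold bon
  have := tau_ge_three P p hk
  split_ifs <;> linarith only [this]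

lemma bon_le_tau (p : ℕ → ℝ) {k : ℕ} (hk : k < P.n) (z : ℝ) : bon P p k z ≤ tau P p k := by
  unfold bon
  have := tau_ge_three P p hk
  split_ifs <;> linarith only [this]

/-- step extension -/
lemma step_ext {p : ℕ → ℝ} {k : ℕ} (hk : k < P.n) (hp : ValidTo P p k) (X : ℝ) :
    ∃ z, Allowed P p k z ∧ (∀ i, i + 1 = k → z ≤ p i) ∧ z ≤ X ∧
      (X - tau P p k ≤ z ∨ ∃ i, i + 1 = k ∧ z = p i) := by
  have ht := tau_ge_three P p hk
  by_cases h0 : ∃ i, i + 1 = k ∧ p i ≤ X
  · obtain ⟨i, hi, hX⟩ := h0
    subst hi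
    refine ⟨p i, Or.inl (crit_prev P p i), fun j hj => ?_, hX, Or.inr ⟨i, rfl, rfl⟩⟩
    have : j = i := by omega
    subst this; rfl
  · have hup : ∀ i, i + 1 = k → X < p i := fun i hi => by
      by_contra hcon
      exact h0 ⟨i, hi, not_lt.1 hcon⟩
    by_cases hA : Allowed P p k X
    · exact ⟨X, hA, fun i hi => (hup i hi).le, le_refl _, Or.inl (by linarith only [ht])⟩
    · unfold Allowed at hA
      push Not at hA
      obtain ⟨hnc, q, hq, hqX⟩ := hA
      rcases lt_trichotomy q X with h | h | h
      · refine ⟨q, Or.inl hq, fun i hi => by linarith only [h, hup i hi], h.le, Or.inl ?_⟩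
        rw [abs_of_pos (by linarith)] at hqX
        linarith
      · subst h; exact absurd hq hnc
      · rw [abs_of_neg (by linarith)] at hqX
        refine ⟨q - tau P p k, Or.inr fun q' hq' => ?_, fun i hi => by linarith only [hqX, hup i hi],
          by linarith only [hqX], Or.inl (by linarith only [h])⟩
        by_cases hqq : q = q'
        · subst hqq
          have : q - tau P p k - q = - tau P p k := by ring
          rw [this, abs_neg]
          exact le_abs_self _
        · have hs := sep_crit P hk hp hq hq' hqq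
          have h1 : |q - q'| ≤ |q - tau P p k - q'| + tau P p k := by
            have : q - q' = (q - tau P p k - q') + tau P p k := by ring
            calc |q - q'| = |(q - tau P p k - q') + tau P p k| := by rw [← this]
              _ ≤ |q - tau P p k - q'| + |tau P p k| := abs_add_le _ _
              _ = _ := by rw [abs_of_pos (by linarith only [ht] : 0 < tau P p k)]
          linarith only [hs, h1]

/-- up move -/
lemma step_up {p : ℕ → ℝ} {k : ℕ} (hk : k < P.n) (hp : ValidTo P p k) {y : ℝ}
    (hy : Allowed P p k y) (hyp : ∀ i, i + 1 = k → y < p i) :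
    ∃ z, Allowed P p k z ∧ (∀ i, i + 1 = k → z ≤ p i) ∧ y + 1 ≤ z ∧
      z - bon P p k z ≤ y + bon P p k y + 1 := by
  have ht := tau_ge_three P p hk
  by_cases hc : Crit P p k y
  · -- critical: go to y + tau
    refine ⟨y + tau P p k, Or.inr fun q' hq' => ?_, fun i hi => ?_, by linarith only [ht], ?_⟩
    · by_cases hqq : y = q'
      · subst hqq
        rw [add_sub_cancel_left]
        exact le_abs_self _
      · have hs := sep_crit P hk hp hc hq' hqq
        have h1 : |y - q'| ≤ |y + tau P p k - q'| + tau P p k := by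
          have : y - q' = (y + tau P p k - q') - tau P p k := by ring
          calc |y - q'| = |(y + tau P p k - q') - tau P p k| := by rw [← this]
            _ ≤ |y + tau P p k - q'| + |tau P p k| := abs_sub _ _
            _ = _ := by rw [abs_of_pos (by linarith only [ht] : 0 < tau P p k)]
        linarith only [hs, h1]
    · subst hi
      have hs := sep_crit P hk hp (crit_prev P p i) hc (ne_of_gt (hyp i rfl))
      rw [abs_of_pos (by linarith only [hyp i rfl])] at hs
      linarith only [ht, hs]
    · have := bon_nonneg P p hk (y + tau P p k)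
      rw [bon_of_crit P hc]
      linarith only [this]
  · have hall : ∀ q, Crit P p k q → tau P p k ≤ |y - q| := hy.resolve_left hc
    rw [bon_of_not_crit P hc]
    by_cases hA : Allowed P p k (y + 1)
    · refine ⟨y + 1, hA, fun i hi => ?_, le_refl _, ?_⟩
      · subst hi
        have h1 := hall _ (crit_prev P p i)
        rw [abs_of_neg (by linarith only [hyp i rfl])] at h1
        linarith only [ht, h1]
      · have := bon_nonneg P p hk (y + 1)
        linarith only [this]
    · unfold Allowed at hA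
      push Not at hA
      obtain ⟨hnc, q, hq, hqX⟩ := hA
      have h1 := hall q hq
      have hqy : y + tau P p k ≤ q := by
        rcases le_or_gt q y with h | h
        · rw [abs_of_nonneg (by linarith only [h])] at h1
          rw [abs_of_nonneg (by linarith only [ht, h1])] at hqX
          linarith only [hqX, h1]
        · rw [abs_of_neg (by linarith only [h])] at h1
          linarith only [h1]
      have hqy2 : q < y + 1 + tau P p k := by
        rw [abs_of_neg (by linarith only [ht, hqy])] at hqX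
        linarith only [hqX]
      refine ⟨q, Or.inl hq, fun i hi => ?_, by linarith only [ht, hqy], ?_⟩
      · subst hi
        by_contra hcon
        push Not at hcon
        have hs := sep_crit P hk hp hq (crit_prev P p i) (ne_of_gt hcon)
        rw [abs_of_pos (by linarith only [hcon])] at hs
        linarith only [ht, hqy2, hs, hyp i rfl]
      · rw [bon_of_crit P hq]
        linarith only [hqy2]

/-- down move -/
lemma step_down {p : ℕ → ℝ} {k : ℕ} (hk : k < P.n) (hp : ValidTo P p k) {y : ℝ}
    (hy : Allowed P p k y) :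
    ∃ z, Allowed P p k z ∧ z ≤ y - 1 ∧ y - tau P p k - 1 ≤ z ∧
      z - bon P p k z ≤ y - bon P p k y - 1 := by
  have ht := tau_ge_three P p hk
  by_cases hc : Crit P p k y
  · refine ⟨y - tau P p k - 1, Or.inr fun q' hq' => ?_, by linarith only [ht], le_refl _, ?_⟩
    · by_cases hqq : y = q'
      · subst hqq
        rw [abs_of_neg (by linarith only [ht])]
        linarith only []
      · have hs := sep_crit P hk hp hc hq' hqq
        have h1 : |y - q'| ≤ |y - tau P p k - 1 - q'| + (tau P p k + 1) := by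
          have : y - q' = (y - tau P p k - 1 - q') + (tau P p k + 1) := by ring
          calc |y - q'| = |(y - tau P p k - 1 - q') + (tau P p k + 1)| := by rw [← this]
            _ ≤ |y - tau P p k - 1 - q'| + |tau P p k + 1| := abs_add_le _ _
            _ = _ := by rw [abs_of_pos (by linarith only [ht] : 0 < tau P p k + 1)]
        linarith only [hs, h1]
    · rw [bon_of_crit P hc]
      have := bon_nonneg P p hk (y - tau P p k - 1)
      linarith only [this]
  · have hall : ∀ q, Crit P p k q → tau P p k ≤ |y - q| := hy.resolve_left hc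
    rw [bon_of_not_crit P hc]
    by_cases hA : Allowed P p k (y - 1)
    · refine ⟨y - 1, hA, le_refl _, by linarith only [ht], ?_⟩
      have := bon_nonneg P p hk (y - 1)
      linarith only [this]
    · unfold Allowed at hA
      push Not at hA
      obtain ⟨hnc, q, hq, hqX⟩ := hA
      have h1 := hall q hq
      have hqy : q ≤ y - tau P p k := by
        rcases le_or_gt q y with h | h
        · rw [abs_of_nonneg (by linarith only [h])] at h1
          linarith only [h1]
        · rw [abs_of_neg (by linarith only [h])] at h1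
          rw [abs_of_neg (by linarith only [ht, h1])] at hqX
          linarith only [hqX, h1]
      have hqy2 : y - 1 - tau P p k < q := by
        rw [abs_of_pos (by linarith only [ht, hqy])] at hqX
        linarith only [hqX]
      refine ⟨q, Or.inl hq, by linarith only [ht, hqy], by linarith only [hqy2], ?_⟩
      rw [bon_of_crit P hq]
      linarith only [ht, hqy]

/-- full extension of a valid initial segment following targets `X`. -/
lemma extend_all (X : ℕ → ℝ) (hX : ∀ i j, i ≤ j → j < P.n → X j ≤ X i) :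
    ∀ (r k : ℕ), k + r = P.n → ∀ (p : ℕ → ℝ) (L : ℝ), ValidTo P p k →
      (∀ i, i + 1 = k → L ≤ p i) →
      ∃ p' : ℕ → ℝ, (∀ i < k, p' i = p i) ∧ ValidTo P p' P.n ∧
        ∀ i, k ≤ i → i < P.n → p' i ≤ X i ∧ min L (X i - P.tmax) ≤ p' i := by
  intro r
  induction r with
  | zero =>
    intro k hk p L hp hL
    have : k = P.n := by omega
    subst this
    exact ⟨p, fun _ _ => rfl, hp, fun i h1 h2 => by omega⟩
  | succ r ih =>
    intro k hk p L hp hL
    have hkn : k < P.n := by omega
    obtain ⟨z, hz1, hz2, hz3, hz4⟩ := step_ext P hkn hp (X k)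
    have htm := tau_le_tmax P p hkn
    have hzL : min L (X k - P.tmax) ≤ z := by
      rcases hz4 with h | ⟨i, hi, h⟩
      · exact (min_le_right _ _).trans (by linarith only [htm, h])
      · rw [h]; exact (min_le_left _ _).trans (hL i hi)
    have hv := validTo_succ P hp hz1 hz2
    obtain ⟨p', h1, h2, h3⟩ := ih (k + 1) (by omega) (Function.update p k z)
      (min L (X k - P.tmax)) hv (fun i hi => by
        have : i = k := by omega
        subst this
        rw [Function.update_self]; exact hzL)
    refine ⟨p', fun i hi => ?_, h2, fun i hi1 hi2 => ?_⟩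
    · rw [h1 i (by omega), Function.update_of_ne (by omega)]
    · rcases Nat.lt_or_ge k i with h | h
      · obtain ⟨h4, h5⟩ := h3 i (by omega) hi2
        refine ⟨h4, le_trans ?_ h5⟩
        have hXX := hX k i hi1 hi2
        apply le_min
        · apply le_min (min_le_left _ _)
          exact (min_le_right _ _).trans (by linarith only [hXX])
        · exact min_le_right _ _
      · have : i = k := by omega
        subst this
        rw [h1 i (by omega), Function.update_self]
        exact ⟨hz3, hzL⟩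

end Vale.Agent.N072R.Pot
end
end

section

section

/-! Near-maximizers of the score are close to `log x`. -/

namespace Vale.Agent.N072R.Pot

open Finset
open Vale.Agent.P072.Pot (young sum_lower exp_one_lt_three extR extR_coe extR_of_lt exists_sort
  extR_antitone exists_small)

variable (P : Params)

/-- cost of the entry at position `k` -/
noncomputable def wt (p : ℕ → ℝ) (k : ℕ) : ℝ := Real.exp (p k - bon P p k (p k))

/-- the score of `p` at `x` -/
noncomputable def score (p x : ℕ → ℝ) : ℝ := ∑ k ∈ range P.n, (p k * x k - wt P p k)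

/-- error allowance -/
noncomputable def Params.lam : ℝ := Real.log (16 * (P.n + 1) * (P.tmax + 1))

lemma Params.tmax_ge_one : 1 ≤ P.tmax := by
  have h1 := P.hT
  have h2 := P.m_ge_three (k := 0) (by omega)
  unfold Params.tmax
  nlinarith

lemma Params.exp_lam : Real.exp P.lam = 16 * (P.n + 1) * (P.tmax + 1) := by
  have := P.tmax_ge_one
  unfold Params.lam
  rw [Real.exp_log]
  positivity

lemma wt_pos (p : ℕ → ℝ) (k : ℕ) : 0 < wt P p k := Real.exp_pos _

lemma wt_congr {p q : ℕ → ℝ} {k : ℕ} (h : ∀ i ≤ k, p i = q i) : wt P p k = wt P q k := by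
  unfold wt
  rw [h k le_rfl, bon_congr P (fun i hi => h i hi.le)]

/-- upper bound of one term -/
lemma term_le (p : ℕ → ℝ) {k : ℕ} (hk : k < P.n) {x : ℝ} (hx : 0 < x) :
    p k * x - wt P p k ≤ x * (Real.log x + P.tmax) := by
  have h1 := young (p k) hx P.tmax
  have h2 : Real.exp (p k - P.tmax) ≤ wt P p k := by
    unfold wt
    apply Real.exp_le_exp.2
    have := bon_le_tau P p hk (p k)
    have := tau_le_tmax P p hk
    linarith
  linarith only [hx, h1, h2]

/-- upper bound of one term, second form -/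
lemma term_le_min (p : ℕ → ℝ) {k : ℕ} (hk : k < P.n) {x y : ℝ} (hx : 0 < x) (hy : p k ≤ y) :
    p k * x - wt P p k ≤ min y (Real.log x + P.tmax) * x := by
  rcases min_choice y (Real.log x + P.tmax) with h | h
  · rw [h]
    have := wt_pos P p k
    have : p k * x ≤ y * x := mul_le_mul_of_nonneg_right hy hx.le
    (clear hk h; linarith)
  · rw [h]
    have := term_le P p hk hx
    linarith only [this]

lemma term_ge (p : ℕ → ℝ) {k : ℕ} (hk : k < P.n) {x L : ℝ} (hx : 0 < x)
    (h1 : p k ≤ Real.log x) (h2 : min L (Real.log x - P.tmax) ≤ p k) :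
    min L (Real.log x - P.tmax) * x - x ≤ p k * x - wt P p k := by
  have h3 : wt P p k ≤ x := by
    unfold wt
    calc Real.exp (p k - bon P p k (p k)) ≤ Real.exp (Real.log x) := by
          apply Real.exp_le_exp.2
          have := bon_nonneg P p hk (p k)
          linarith only [h1, this]
      _ = x := Real.exp_log hx
  have h4 : min L (Real.log x - P.tmax) * x ≤ p k * x := mul_le_mul_of_nonneg_right h2 hx.le
  linarith only [h3, h4]

/-- lower closeness -/
lemma close_lower {p x : ℕ → ℝ} (hx : ∀ i < P.n, 0 < x i)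
    (hanti : ∀ i j, i ≤ j → j < P.n → x j ≤ x i) (hp : ValidTo P p P.n) {ε : ℝ}
    (hε : ∀ i < P.n, ε ≤ x i / 4)
    (hmax : ∀ p' : ℕ → ℝ, ValidTo P p' P.n → score P p' x ≤ score P p x + ε) :
    ∀ j < P.n, p j - bon P p j (p j) - P.lam ≤ Real.log (x j) := by
  intro j hj
  by_contra hcon
  push Not at hcon
  have htm := P.tmax_ge_one
  have hlogX : ∀ i k, i ≤ k → k < P.n → Real.log (x k) ≤ Real.log (x i) := fun i k hik hk =>
    Real.log_le_log (hx k hk) (hanti i k hik hk)
  obtain ⟨z, hz1, hz2, hz3, hz4⟩ := step_down P hj (hp.mono P hj.le) (hp j hj).2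
  have hv := validTo_succ P (hp.mono P hj.le) hz1 (fun i hi => by
    have := (hp j hj).1 i hi
    linarith only [hz2, this])
  obtain ⟨p', h1, h2, h3⟩ := extend_all P (fun i => Real.log (x i)) hlogX (P.n - (j + 1)) (j + 1)
    (by omega) (Function.update p j z) z hv (fun i hi => by
      have : i = j := by omega
      subst this
      rw [Function.update_self])
  have hpre : ∀ i < j, p' i = p i := fun i hi => by
    rw [h1 i (by omega), Function.update_of_ne (by omega)]
  have hpj : p' j = z := by rw [h1 j (by omega), Function.update_self]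
  have hxj := hx j hj
  have htau := tau_le_tmax P p hj
  -- gain at j
  have hwj : wt P p' j ≤ wt P p j * Real.exp (-1) := by
    unfold wt
    rw [← Real.exp_add]
    apply Real.exp_le_exp.2
    rw [hpj, bon_congr P hpre]
    linarith only [hz4]
  have hwpj : (16 * (P.n + 1) * (P.tmax + 1)) * x j < wt P p j := by
    unfold wt
    rw [← P.exp_lam]
    calc Real.exp P.lam * x j = Real.exp (P.lam + Real.log (x j)) := by
          rw [Real.exp_add, Real.exp_log hxj]
      _ < _ := by
          apply Real.exp_lt_exp.2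
          linarith only [hcon]
  have he1 : Real.exp (-1) ≤ 1 / 2 := by
    rw [Real.exp_neg]
    have := Real.exp_one_gt_d9
    rw [inv_le_comm₀ (Real.exp_pos _) (by norm_num)]
    norm_num
    linarith only [this]
  have hgain : 8 * (P.n + 1) * (P.tmax + 1) * x j - (P.tmax + 1) * x j
      ≤ (p' j * x j - wt P p' j) - (p j * x j - wt P p j) := by
    rw [hpj]
    have e1 : wt P p j * Real.exp (-1) ≤ wt P p j * (1 / 2) :=
      mul_le_mul_of_nonneg_left he1 (wt_pos P p j).le
    have e2 : (p j - z) * x j ≤ (P.tmax + 1) * x j :=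
      mul_le_mul_of_nonneg_right (by linarith only [hz3, htau]) hxj.le
    linarith
  have hterm : ∀ k < P.n, (if k = j then 8 * (P.n + 1) * (P.tmax + 1) * x j
        - (P.tmax + 1) * x j + (2 * P.tmax + 2) * x j else 0) - (2 * P.tmax + 2) * x j
      ≤ (p' k * x k - wt P p' k) - (p k * x k - wt P p k) := by
    intro k hk
    rcases lt_trichotomy k j with h | h | h
    · have hw : wt P p' k = wt P p k := wt_congr P fun i hi => hpre i (by omega)
      rw [hpre k h, hw, if_neg (by omega)]
      have : 0 ≤ (2 * P.tmax + 2) * x j := by (clear * - htm hxj; positivity)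
      linarith only [this]
    · subst h
      rw [if_pos rfl]
      linarith only [hgain]
    · rw [if_neg (by omega)]
      have hxk := hx k hk
      obtain ⟨h4, h5⟩ := h3 k (by omega) hk
      have e1 := term_ge P p' hk hxk h4 h5
      have e2 := term_le_min P p hk hxk (hp.antitone P (by omega : j ≤ k) hk)
      have e3 : min (p j) (Real.log (x k) + P.tmax) - (2 * P.tmax + 1)
          ≤ min z (Real.log (x k) - P.tmax) := by
        apply le_min
        · have := min_le_left (p j) (Real.log (x k) + P.tmax)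
          linarith only [htm, hz3, htau, this]
        · have := min_le_right (p j) (Real.log (x k) + P.tmax)
          linarith only [this]
      have e4 := mul_le_mul_of_nonneg_right e3 hxk.le
      have hxkj := hanti j k (by omega) hk
      have e5 : (2 * P.tmax + 2) * x k ≤ (2 * P.tmax + 2) * x j :=
        mul_le_mul_of_nonneg_left hxkj (by positivity)
      nlinarith only [e1, e2, e4, e5]
  have hsum := sum_lower hj (fun k => (p' k * x k - wt P p' k) - (p k * x k - wt P p k)) _ _
    (by (clear * - htm hxj; positivity)) hterm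
  have hsc : ∑ k ∈ range P.n, ((p' k * x k - wt P p' k) - (p k * x k - wt P p k))
      = score P p' x - score P p x := by
    unfold score
    rw [sum_sub_distrib]
  rw [hsc] at hsum
  have hm := hmax p' h2
  have he := hε j hj
  have hn : (0 : ℝ) ≤ P.n := Nat.cast_nonneg _
  have hfin : x j ≤ 8 * (P.n + 1) * (P.tmax + 1) * x j
        - (P.tmax + 1) * x j + (2 * P.tmax + 2) * x j - P.n * ((2 * P.tmax + 2) * x j) := by
    have : 1 ≤ 8 * (P.n + 1) * (P.tmax + 1) - (P.tmax + 1) + (2 * P.tmax + 2)
        - P.n * (2 * P.tmax + 2) := by nlinarith only [htm]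
    nlinarith only [hxj, this]
  linarith only [hxj, hsum, hm, he, hfin]

/-- upper closeness -/
lemma close_upper {p x : ℕ → ℝ} (hx : ∀ i < P.n, 0 < x i)
    (hanti : ∀ i j, i ≤ j → j < P.n → x j ≤ x i) (hp : ValidTo P p P.n) {ε : ℝ}
    (hε : ∀ i < P.n, ε ≤ x i / 4)
    (hmax : ∀ p' : ℕ → ℝ, ValidTo P p' P.n → score P p' x ≤ score P p x + ε) :
    ∀ j < P.n, Real.log (x j) ≤ p j + bon P p j (p j) + P.lam := by
  classical
  intro j hj
  by_contra hcon
  push Not at hcon
  have htm := P.tmax_ge_one
  have hxj := hx j hj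
  have hn : (0 : ℝ) ≤ P.n := Nat.cast_nonneg _
  have hlogX : ∀ i k, i ≤ k → k < P.n → Real.log (x k) ≤ Real.log (x i) := fun i k hik hk =>
    Real.log_le_log (hx k hk) (hanti i k hik hk)
  -- first index of the block
  have hex : ∃ a, p a = p j := ⟨j, rfl⟩
  let a := Nat.find hex
  have ha : p a = p j := Nat.find_spec hex
  have haj : a ≤ j := Nat.find_min' hex rfl
  have hamin : ∀ i < a, p i ≠ p j := fun i hi => Nat.find_min hex hi
  have han : a < P.n := by omega
  have halt : ∀ i, i + 1 = a → p a < p i := fun i hi => by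
    have h1 := (hp a han).1 i hi
    have h2 := hamin i (by omega)
    exact lt_of_le_of_ne h1 (by rw [ha]; exact (Ne.symm h2))
  obtain ⟨y, hy1, hy2, hy3, hy4⟩ := step_up P han (hp.mono P han.le) (hp a han).2 halt
  -- comparison of the bonuses
  have hbon : bon P p a (p a) ≤ bon P p j (p j) := by
    rcases Nat.lt_or_ge a j with h | h
    · -- j is critical
      have hprev : p (j - 1) = p j := by
        have h1 := hp.antitone P (by omega : a ≤ j - 1) (by omega)
        have h2 := hp.antitone P (by omega : j - 1 ≤ j) hj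
        linarith only [h2, ha, h1]
      have hcj : Crit P p j (p j) := by
        have := crit_prev P p (j - 1)
        rw [hprev] at this
        have hjj : j - 1 + 1 = j := by omega
        rwa [hjj] at this
      rw [bon_of_crit P hcj]
      by_cases hca : Crit P p a (p a)
      · rw [bon_of_crit P hca, ← scale_succ_of_crit P hca]
        exact (scale_mono P p (by omega) (by omega)).trans (scale_le_tau P p hj)
      · rw [bon_of_not_crit P hca]
        have := tau_ge_three P p hj
        linarith only [this]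
    · have : a = j := by omega
      rw [this]
  -- cut index
  set θ : ℝ := 1 / (8 * (P.n + 1) * (P.tmax + 1)) with hθ
  have hθpos : 0 < θ := by rw [hθ]; (clear * - htm; positivity)
  have hex2 : ∃ m, j + 1 ≤ m ∧ (m = P.n ∨ x m ≤ θ * x j) := ⟨P.n, by omega, Or.inl rfl⟩
  let m := Nat.find hex2
  obtain ⟨hm1, hm2⟩ : j + 1 ≤ m ∧ (m = P.n ∨ x m ≤ θ * x j) := Nat.find_spec hex2
  have hmn : m ≤ P.n := Nat.find_min' hex2 ⟨by omega, Or.inl rfl⟩
  have hsmall : ∀ k, m ≤ k → k < P.n → x k ≤ θ * x j := fun k h1 h2 => by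
    rcases hm2 with h | h
    · omega
    · exact (hanti m k h1 h2).trans h
  -- new initial segment
  let p1 : ℕ → ℝ := fun i => if a ≤ i ∧ i < m then y else p i
  have hp1a : ∀ i < a, p1 i = p i := fun i hi => by
    simp only [p1]; rw [if_neg (by omega)]
  have hp1m : ∀ i, a ≤ i → i < m → p1 i = y := fun i h1 h2 => by
    simp only [p1]; rw [if_pos ⟨h1, h2⟩]
  have hv1 : ValidTo P p1 m := by
    intro i hi
    rcases lt_trichotomy i a with h | h | h
    · exact validTo_congr P (fun k hk => (hp1a k (by omega)).symm) (hp.mono P (by omega : i + 1 ≤ P.n)) i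
        (by omega)
    · subst h
      refine ⟨fun k hk => ?_, ?_⟩
      · rw [hp1m _ le_rfl hi, hp1a k (by omega)]
        exact hy2 k hk
      · rw [hp1m _ le_rfl hi]
        exact (allowed_congr P (fun k hk => (hp1a k hk).symm) y).1 hy1
    · refine ⟨fun k hk => ?_, ?_⟩
      · rw [hp1m _ (by omega) hi, hp1m k (by omega) (by omega)]
      · left
        have hc := crit_prev P p1 (i - 1)
        have hii : i - 1 + 1 = i := by omega
        rw [hii, hp1m (i - 1) (by omega) (by omega)] at hc
        rw [hp1m i (by omega) hi]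
        exact hc
  obtain ⟨p', h1, h2, h3⟩ := extend_all P (fun i => Real.log (x i)) hlogX (P.n - m) m
    (by omega) p1 y hv1 (fun i hi => by
      rw [hp1m i (by omega) (by omega)])
  have hpa : ∀ i < a, p' i = p i := fun i hi => by rw [h1 i (by omega), hp1a i hi]
  have hpm : ∀ i, a ≤ i → i < m → p' i = y := fun i e1 e2 => by rw [h1 i e2, hp1m i e1 e2]
  -- weights in the block
  have hw : ∀ k, a ≤ k → k < m → wt P p' k ≤ 3 / (16 * (P.n + 1) * (P.tmax + 1)) * x j := by
    intro k hk1 hk2
    have hkn : k < P.n := by omega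
    have hb1 : y - bon P p' k (p' k) ≤ p j + bon P p j (p j) + 1 := by
      have hbonk : bon P p a y ≤ bon P p' k (p' k) := by
        rcases Nat.lt_or_ge a k with h | h
        · have hc := crit_prev P p' (k - 1)
          have hkk : k - 1 + 1 = k := by omega
          rw [hkk, hpm (k - 1) (by omega) (by omega)] at hc
          rw [hpm k hk1 hk2, bon_of_crit P hc]
          by_cases hca : Crit P p a y
          · rw [bon_of_crit P hca]
            have hca' : Crit P p' a (p' a) := by
              rw [hpm a le_rfl (by omega)]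
              exact (crit_congr P (fun i hi => (hpa i hi).symm) y).1 hca
            rw [tau_congr P (fun i hi => (hpa i hi).symm), ← scale_succ_of_crit P hca']
            exact (scale_mono P p' (by omega) (by omega)).trans (scale_le_tau P p' hkn)
          · rw [bon_of_not_crit P hca]
            have := tau_ge_three P p' hkn
            linarith only [this]
        · have hka : k = a := by omega
          rw [hka, hpm a le_rfl (by omega), bon_congr P (fun i hi => (hpa i hi).symm)]
      linarith only [ha, hy4, hbon, hbonk]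
    have : wt P p' k ≤ Real.exp (1 - P.lam) * x j := by
      unfold wt
      calc Real.exp (p' k - bon P p' k (p' k)) ≤ Real.exp (1 - P.lam + Real.log (x j)) := by
            apply Real.exp_le_exp.2
            rw [hpm k hk1 hk2] at hb1 ⊢
            linarith only [hcon, hb1]
        _ = Real.exp (1 - P.lam) * x j := by rw [Real.exp_add, Real.exp_log hxj]
    refine this.trans (mul_le_mul_of_nonneg_right ?_ hxj.le)
    rw [Real.exp_sub, P.exp_lam]
    exact div_le_div_of_nonneg_right exp_one_lt_three.le (by (clear * - htm; positivity))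
  set c1 : ℝ := 3 / (16 * (P.n + 1) * (P.tmax + 1)) * x j with hc1
  set c2 : ℝ := (2 * P.tmax + 2) * (θ * x j) with hc2
  have hc1pos : 0 ≤ c1 := by rw [hc1]; (clear * - htm hxj; positivity)
  have hc2pos : 0 ≤ c2 := by rw [hc2]; (clear * - htm hxj; positivity)
  have hterm : ∀ k < P.n, (if k = j then x j else 0) - (c1 + c2)
      ≤ (p' k * x k - wt P p' k) - (p k * x k - wt P p k) := by
    intro k hk
    have hxk := hx k hk
    rcases Nat.lt_or_ge k a with h | h
    · have hw' : wt P p' k = wt P p k := wt_congr P fun i hi => hpa i (by omega)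
      rw [hpa k h, hw', if_neg (by omega)]
      linarith only [hc1pos, hc2pos]
    · rcases Nat.lt_or_ge k m with h' | h'
      · have e1 := hw k h h'
        have e2 := wt_pos P p k
        have e3 : p k ≤ p a := hp.antitone P h hk
        rw [hpm k h h'] at *
        by_cases hkj : k = j
        · subst hkj
          rw [if_pos rfl]
          nlinarith only [e2, hc2pos, e1, hxk, ha, hy3]
        · rw [if_neg hkj]
          have : 0 ≤ (y - p k) * x k := mul_nonneg (by linarith only [hy3, e3]) hxk.le
          nlinarith only [hc2pos, e1, e2, this]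
      · rw [if_neg (by omega)]
        obtain ⟨h4, h5⟩ := h3 k h' hk
        have e1 := term_ge P p' hk hxk h4 h5
        have e0 : p k ≤ p a := hp.antitone P h hk
        have e2 := term_le_min P p hk hxk (by linarith only [hy3, e0] : p k ≤ y)
        have e3 : min y (Real.log (x k) + P.tmax) - (2 * P.tmax + 1)
            ≤ min y (Real.log (x k) - P.tmax) := by
          apply le_min
          · have := min_le_left y (Real.log (x k) + P.tmax)
            linarith only [htm, this]
          · have := min_le_right y (Real.log (x k) + P.tmax)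
            linarith only [this]
        have e4 := mul_le_mul_of_nonneg_right e3 hxk.le
        have e5 : (2 * P.tmax + 2) * x k ≤ c2 :=
          mul_le_mul_of_nonneg_left (hsmall k h' hk) (by positivity)
        nlinarith only [hc1pos, e1, e2, e4, e5]
  have hsum := sum_lower hj (fun k => (p' k * x k - wt P p' k) - (p k * x k - wt P p k)) _ _
    (by (clear * - htm hxj; positivity)) hterm
  have hsc : ∑ k ∈ range P.n, ((p' k * x k - wt P p' k) - (p k * x k - wt P p k))
      = score P p' x - score P p x := by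
    unfold score
    rw [sum_sub_distrib]
  rw [hsc] at hsum
  have hm := hmax p' h2
  have he := hε j hj
  have hA : P.n * c1 ≤ 3 / 16 * x j := by
    rw [hc1]
    have : (P.n : ℝ) * (3 / (16 * (P.n + 1) * (P.tmax + 1))) ≤ 3 / 16 := by
      rw [mul_div_assoc', div_le_div_iff₀ (by (clear * - htm; positivity)) (by norm_num)]
      nlinarith only [htm]
    nlinarith only [hxj, this]
  have hB : P.n * c2 ≤ 1 / 4 * x j := by
    rw [hc2, hθ]
    have : (P.n : ℝ) * ((2 * P.tmax + 2) * (1 / (8 * (P.n + 1) * (P.tmax + 1)))) ≤ 1 / 4 := by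
      rw [← mul_assoc, mul_one_div, div_le_div_iff₀ (by (clear * - htm; positivity)) (by norm_num)]
      nlinarith only [htm]
    nlinarith only [hxj, this]
  linarith

/-- MAIN closeness statement. -/
theorem closeness {p x : ℕ → ℝ} (hx : ∀ i < P.n, 0 < x i)
    (hanti : ∀ i j, i ≤ j → j < P.n → x j ≤ x i) (hp : ValidTo P p P.n) {ε : ℝ}
    (hε : ∀ i < P.n, ε ≤ x i / 4)
    (hmax : ∀ p' : ℕ → ℝ, ValidTo P p' P.n → score P p' x ≤ score P p x + ε) :
    ∀ j < P.n, |Real.log (x j) - p j| ≤ bon P p j (p j) + P.lam := by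
  intro j hj
  have h1 := close_lower P hx hanti hp hε hmax j hj
  have h2 := close_upper P hx hanti hp hε hmax j hj
  rw [abs_le]
  constructor <;> linarith only [h1, h2]

end Vale.Agent.N072R.Pot
end
end

section

section

/-! Sign lemma and existence of parameters. -/

namespace Vale.Agent.N072R.Pot

open Finset
open Vale.Agent.P072.Pot (young sum_lower exp_one_lt_three extR extR_coe extR_of_lt exists_sort
  extR_antitone exists_small)

lemma bon_le_scale (P : Params) (p : ℕ → ℝ) {k : ℕ} (hk : k < P.n) :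
    bon P p k (p k) ≤ scale P p P.n := by
  by_cases hc : Crit P p k (p k)
  · rw [bon_of_crit P hc, ← scale_succ_of_crit P hc]
    exact scale_mono P p hk le_rfl
  · rw [bon_of_not_crit P hc]
    have := scale_ge_one P p (k := P.n) le_rfl
    linarith only [this]

theorem sign_lemma (P : Params) {p x : ℕ → ℝ} {N : ℕ} {δ : ℝ} (hp : ValidTo P p P.n)
    (hclose : ∀ j < P.n, |Real.log (x j) - p j| ≤ bon P p j (p j) + P.lam)
    (hN : ∀ a ∈ P.A P.n, |a| ≤ N) (hlam : P.lam ≤ P.T) (hδ : δ ≤ P.T)
    (hm : (2 * P.n * N + 2) * P.D ^ P.n ≤ P.m P.n) (v : ℕ → ℝ) (hv : ∀ i, v i ∈ P.A P.n)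
    (hpos : 0 < dot v p P.n) : δ < dot v (fun i => Real.log (x i)) P.n := by
  have hT := P.hT
  have hsc := scale_pos_aux P p (k := P.n) le_rfl
  have hD := P.D_ge_one
  have hDn : 0 < P.D ^ P.n := by positivity
  have h1 := (sep P le_rfl hp v hv).resolve_left hpos.ne'
  rw [abs_of_pos hpos, div_le_iff₀ hDn] at h1
  have h2 : (2 * P.n * N + 2) * scale P p P.n ≤ dot v p P.n := by
    have : P.D ^ P.n * ((2 * P.n * N + 2) * scale P p P.n) ≤ P.D ^ P.n * dot v p P.n := by
      calc P.D ^ P.n * ((2 * P.n * N + 2) * scale P p P.n)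
          = scale P p P.n * ((2 * P.n * N + 2) * P.D ^ P.n) := by ring
        _ ≤ scale P p P.n * P.m P.n := mul_le_mul_of_nonneg_left hm (by linarith only [hT, hsc])
        _ ≤ dot v p P.n * P.D ^ P.n := h1
        _ = _ := by ring
    exact le_of_mul_le_mul_left this hDn
  have h3 : |dot v (fun i => Real.log (x i)) P.n - dot v p P.n|
      ≤ P.n * (N * (2 * scale P p P.n)) := by
    unfold dot
    rw [← sum_sub_distrib]
    refine (abs_sum_le_sum_abs _ _).trans ?_
    calc ∑ i ∈ range P.n, |(v i : ℝ) * Real.log (x i) - (v i : ℝ) * p i|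
        ≤ ∑ i ∈ range P.n, N * (2 * scale P p P.n) := by
          refine sum_le_sum fun i hi => ?_
          have hi' := mem_range.1 hi
          rw [← mul_sub, abs_mul]
          have e1 : |v i| ≤ N := hN _ (hv i)
          have e2 : |Real.log (x i) - p i| ≤ 2 * scale P p P.n := by
            have := hclose i hi'
            have := bon_le_scale P p hi'
            (clear N δ hp hN hδ hm v hv hpos hT hD hDn h1 h2 e1; linarith)
          exact mul_le_mul e1 e2 (abs_nonneg _) (Nat.cast_nonneg _)
      _ = P.n * (N * (2 * scale P p P.n)) := by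
          rw [sum_const, card_range, nsmul_eq_mul]
  have h4 := (abs_le.1 h3).1
  have h5 : dot v p P.n - 2 * P.n * N * scale P p P.n ≤ dot v (fun i => Real.log (x i)) P.n := by
    linarith only [h4]
  linarith

/-- one elimination step on sets of entries -/
def elimStep (S : Set ℝ) : Set ℝ :=
  (fun q : (ℝ × ℝ) × ℝ × ℝ => q.1.1 * q.2.1 - q.1.2 * q.2.2) '' ((S ×ˢ S) ×ˢ S ×ˢ S)

lemma elimStep_finite {S : Set ℝ} (h : S.Finite) : (elimStep S).Finite :=
  ((h.prod h).prod (h.prod h)).image _

lemma mem_elimStep {S : Set ℝ} {a b x y : ℝ} (ha : a ∈ S) (hb : b ∈ S) (hx : x ∈ S)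
    (hy : y ∈ S) : a * x - b * y ∈ elimStep S :=
  ⟨((a, b), (x, y)), ⟨⟨ha, hb⟩, ⟨hx, hy⟩⟩, rfl⟩

lemma subset_elimStep {S : Set ℝ} (h0 : (0 : ℝ) ∈ S) (h1 : (1 : ℝ) ∈ S) : S ⊆ elimStep S := by
  intro a ha
  have := mem_elimStep h1 h0 ha h0
  simpa using this

lemma iter_props {S : Set ℝ} (hS : S.Finite) (h0 : (0 : ℝ) ∈ S) (h1 : (1 : ℝ) ∈ S) (j : ℕ) :
    (elimStep^[j] S).Finite ∧ S ⊆ elimStep^[j] S := by
  induction j with
  | zero => exact ⟨hS, le_rfl⟩
  | succ j ih =>
    rw [Function.iterate_succ_apply']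
    exact ⟨elimStep_finite ih.1, ih.2.trans (subset_elimStep (ih.2 h0) (ih.2 h1))⟩

lemma iter_mono {S : Set ℝ} (hS : S.Finite) (h0 : (0 : ℝ) ∈ S) (h1 : (1 : ℝ) ∈ S) {i j : ℕ}
    (hij : i ≤ j) : elimStep^[i] S ⊆ elimStep^[j] S := by
  induction j, hij using Nat.le_induction with
  | base => exact le_rfl
  | succ j _ ih =>
    rw [Function.iterate_succ_apply']
    have := iter_props hS h0 h1 j
    exact ih.trans (subset_elimStep (this.2 h0) (this.2 h1))

lemma exists_two_sided {S : Set ℝ} (hS : S.Finite) :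
    ∃ D : ℝ, 1 ≤ D ∧ (∀ a ∈ S, |a| ≤ D) ∧ ∀ a ∈ S, a ≠ 0 → 1 ≤ D * |a| := by
  obtain ⟨D, hD⟩ := (hS.image fun a => |a| + |a|⁻¹).bddAbove
  refine ⟨max 1 D, le_max_left _ _, fun a ha => ?_, fun a ha h0 => ?_⟩
  · have h1 : |a| + |a|⁻¹ ≤ D := hD ⟨a, ha, rfl⟩
    have h2 : 0 ≤ |a|⁻¹ := by positivity
    exact le_trans (by linarith) (le_max_right 1 D)
  · have h1 : |a| + |a|⁻¹ ≤ D := hD ⟨a, ha, rfl⟩
    have h2 : 0 < |a| := abs_pos.2 h0
    have h3 : |a|⁻¹ ≤ max 1 D := le_trans (by linarith) (le_max_right 1 D)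
    calc (1 : ℝ) = |a|⁻¹ * |a| := by field_simp
      _ ≤ _ := mul_le_mul_of_nonneg_right h3 h2.le

theorem exists_params (n : ℕ) (E : Set ℝ) (hE : E.Finite) (δ : ℝ) : ∃ (P : Params) (N : ℕ),
    P.n = n ∧ E ⊆ P.A P.n ∧ (∀ a ∈ P.A P.n, |a| ≤ N) ∧
    P.lam ≤ P.T ∧ δ ≤ P.T ∧ (2 * P.n * N + 2) * P.D ^ P.n ≤ P.m P.n := by
  set S : Set ℝ := insert 0 (insert 1 (insert (-1) E)) with hS
  have hSf : S.Finite := ((hE.insert _).insert _).insert _
  have hS0 : (0 : ℝ) ∈ S := by simp [hS]
  have hS1 : (1 : ℝ) ∈ S := by simp [hS]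
  have hS1' : (-1 : ℝ) ∈ S := by simp [hS]
  obtain ⟨D, hD1, hDa, hDb⟩ := exists_two_sided (iter_props hSf hS0 hS1 n).1
  obtain ⟨N, hN⟩ := exists_nat_ge D
  set M : ℝ := (2 * n * N + 3) * D ^ (n + 2) with hM
  have hnN : (0 : ℝ) ≤ 2 * n * N := by (clear * -; positivity)
  have hDn2 : 1 ≤ D ^ (n + 2) := one_le_pow₀ hD1
  have hM3 : 3 * D ^ (n + 2) ≤ M := by
    rw [hM]; exact mul_le_mul_of_nonneg_right (by linarith only [hnN]) (by linarith only [hDn2])
  have hM1 : 1 ≤ M := by linarith only [hDn2, hM3]
  set m : ℕ → ℝ := fun k => M ^ (2 ^ (n - k)) with hmdef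
  set T : ℝ := 32 * (n + 1) * (m 0 + 1) + |δ| + 1 with hTdef
  have hm0 : 1 ≤ m 0 := by rw [hmdef]; exact one_le_pow₀ hM1
  have hn0 : (0 : ℝ) ≤ n := Nat.cast_nonneg _
  have hT1 : 1 ≤ T := by
    rw [hTdef]
    have : 0 ≤ 32 * ((n : ℝ) + 1) * (m 0 + 1) :=
      mul_nonneg (by linarith only [hn0]) (by linarith only [hm0])
    have := abs_nonneg δ
    linarith
  let P : Params :=
    { n := n
      A := fun k => elimStep^[n - k] S
      m := m
      T := T
      D := D
      hA0 := fun k => (iter_props hSf hS0 hS1 _).2 hS0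
      hA1 := fun k => (iter_props hSf hS0 hS1 _).2 hS1
      hA1' := fun k => (iter_props hSf hS0 hS1 _).2 hS1'
      hA2 := fun k hk a ha b hb x hx y hy => by
        have e1 : n - k = (n - (k + 1)) + 1 := by omega
        rw [e1, Function.iterate_succ_apply']
        exact mem_elimStep ha hb hx hy
      hAD := fun k a ha => hDa a (iter_mono hSf hS0 hS1 (by omega) ha)
      hAD' := fun k a ha => hDb a (iter_mono hSf hS0 hS1 (by omega) ha)
      hm := fun k hk => by
        have e1 : n - k = (n - (k + 1)) + 1 := by omega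
        simp only [hmdef]
        rw [e1, pow_succ, mul_comm, pow_mul]
        rw [← pow_two, pow_right_comm]
      hmM := fun k hk => by
        simp only [hmdef]
        refine hM3.trans ?_
        exact le_self_pow₀ hM1 (by positivity)
      hT := hT1 }
  refine ⟨P, N, rfl, ?_, fun a ha => (P.hAD _ a ha).trans hN, ?_, ?_, ?_⟩
  · intro a ha
    exact (iter_props hSf hS0 hS1 _).2 (by simp [hS, ha])
  · -- lam ≤ T
    have hexp := P.exp_lam
    have h1 : Real.exp P.lam ≤ Real.exp T := by
      rw [hexp]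
      change 16 * ((n : ℝ) + 1) * (T * m 0 + 1) ≤ Real.exp T
      have h2 := Real.quadratic_le_exp_of_nonneg (by linarith only [hT1] : (0 : ℝ) ≤ T)
      have h3 : 32 * (n + 1) * (m 0 + 1) ≤ T := by
        rw [hTdef]; have := abs_nonneg δ; linarith only [this]
      have h4 : 16 * ((n : ℝ) + 1) * (T * m 0 + 1) ≤ 16 * (n + 1) * (m 0 + 1) * T := by
        have : T * m 0 + 1 ≤ (m 0 + 1) * T := by nlinarith only [hT1]
        nlinarith only [this]
      nlinarith only [h2, h3, hT1]
    exact Real.exp_le_exp.1 h1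
  · change δ ≤ T
    rw [hTdef]
    have : 0 ≤ 32 * ((n : ℝ) + 1) * (m 0 + 1) :=
      mul_nonneg (by linarith only [hn0]) (by linarith only [hm0])
    have := le_abs_self δ
    linarith
  · change (2 * (n : ℝ) * N + 2) * D ^ n ≤ m n
    simp only [hmdef, Nat.sub_self, pow_zero, pow_one]
    rw [hM]
    have h1 : D ^ n ≤ D ^ (n + 2) := pow_le_pow_right₀ hD1 (by omega)
    have h2 : 0 ≤ D ^ n := by positivity
    nlinarith only [hDn2, h1, hnN]

end Vale.Agent.N072R.Pot
end
end

section

section

/-! The potential on `Fin n`, and on a subset of coordinates. -/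

namespace Vale.Agent.N072R.Pot

open Finset
open Vale.Agent.P072.Pot (young sum_lower exp_one_lt_three extR extR_coe extR_of_lt exists_sort
  extR_antitone exists_small)

variable (P : Params)

/-- the pairing of a valid sequence, arranged by a permutation, with `x`, minus the cost -/
noncomputable def fval (x : Fin P.n → ℝ) (p : ℕ → ℝ) (s : Equiv.Perm (Fin P.n)) : ℝ :=
  ∑ i : Fin P.n, p i * x (s i) - ∑ k ∈ range P.n, wt P p k

lemma fval_eq_score (x : Fin P.n → ℝ) (p : ℕ → ℝ) (s : Equiv.Perm (Fin P.n)) :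
    fval P x p s = score P p (extR (x ∘ s)) := by
  unfold fval score
  rw [sum_sub_distrib, Finset.sum_range (fun k => p k * extR (x ∘ s) k)]
  congr 1
  refine sum_congr rfl fun i _ => ?_
  rw [extR_coe]; rfl

lemma tmax_nonneg : 0 ≤ P.tmax := by
  unfold Params.tmax
  have := P.hT
  have := P.m_ge_three (k := 0) (by omega)
  positivity

lemma fval_le {x : Fin P.n → ℝ} (hx : ∀ i, 0 < x i) (p : ℕ → ℝ) (s : Equiv.Perm (Fin P.n)) :
    fval P x p s ≤ ∑ i, x i * (Real.log (x i) + P.tmax) := by
  rw [fval_eq_score]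
  unfold score
  rw [Finset.sum_range (fun k => p k * extR (x ∘ s) k - wt P p k)]
  rw [← Equiv.sum_comp s (fun i => x i * (Real.log (x i) + P.tmax))]
  refine sum_le_sum fun i _ => ?_
  have h := term_le P p (k := i) i.2 (x := extR (x ∘ s) i) (by rw [extR_coe]; exact hx _)
  rw [extR_coe] at h ⊢
  exact h

/-- the potential -/
noncomputable def pot (x : Fin P.n → ℝ) : ℝ :=
  ⨆ q : {p : ℕ → ℝ // ValidTo P p P.n} × Equiv.Perm (Fin P.n), fval P x q.1.1 q.2

lemma bddAbove_pot {x : Fin P.n → ℝ} (hx : ∀ i, 0 < x i) :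
    BddAbove (Set.range fun q : {p : ℕ → ℝ // ValidTo P p P.n} × Equiv.Perm (Fin P.n) =>
      fval P x q.1.1 q.2) := by
  refine ⟨∑ i, x i * (Real.log (x i) + P.tmax), ?_⟩
  rintro _ ⟨q, rfl⟩
  exact fval_le P hx _ _

lemma fval_le_pot {x : Fin P.n → ℝ} (hx : ∀ i, 0 < x i) {p : ℕ → ℝ} (hp : ValidTo P p P.n)
    (s : Equiv.Perm (Fin P.n)) : fval P x p s ≤ pot P x :=
  le_ciSup (bddAbove_pot P hx) (⟨⟨p, hp⟩, s⟩ :
    {p : ℕ → ℝ // ValidTo P p P.n} × Equiv.Perm (Fin P.n))

/-- a valid sequence close to the logarithms -/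
lemma exists_valid_near {y : Fin P.n → ℝ} (hy : ∀ i, 0 < y i) (hanti : Antitone y) :
    ∃ p : ℕ → ℝ, ValidTo P p P.n ∧ ∀ i : Fin P.n, p i ≤ Real.log (y i) ∧
      Real.log (y i) - P.tmax ≤ p i := by
  have hX : ∀ i j, i ≤ j → j < P.n →
      (fun i => extR (fun i => Real.log (y i)) i) j ≤
      (fun i => extR (fun i => Real.log (y i)) i) i := by
    apply extR_antitone
    intro i j hij
    exact Real.log_le_log (hy j) (hanti hij)
  obtain ⟨p, -, hp, h⟩ := extend_all P _ hX P.n 0 (by omega) (fun _ => 0)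
    (extR (fun i => Real.log (y i)) 0) (fun j hj => by omega) (fun i hi => by omega)
  refine ⟨p, hp, fun i => ?_⟩
  obtain ⟨h1, h2⟩ := h i (by omega) i.2
  simp only [extR_coe] at h1 h2
  refine ⟨h1, le_trans ?_ h2⟩
  apply le_min _ le_rfl
  have h3 := hX 0 i (by omega) i.2
  simp only [extR_coe] at h3
  have := tmax_nonneg P
  linarith

lemma wt_le_exp (p : ℕ → ℝ) {k : ℕ} (hk : k < P.n) : wt P p k ≤ Real.exp (p k) := by
  unfold wt
  apply Real.exp_le_exp.2
  have := bon_nonneg P p hk (p k)
  linarith only [this]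

lemma pot_nonempty : Nonempty ({p : ℕ → ℝ // ValidTo P p P.n} × Equiv.Perm (Fin P.n)) := by
  obtain ⟨p, hp, -⟩ := exists_valid_near P (y := fun _ => 1) (fun _ => one_pos)
    (fun _ _ _ => le_rfl)
  exact ⟨⟨⟨p, hp⟩, 1⟩⟩

lemma pot_le {x : Fin P.n → ℝ} (hx : ∀ i, 0 < x i) :
    pot P x ≤ ∑ i, x i * (Real.log (x i) + P.tmax) :=
  haveI := pot_nonempty P
  ciSup_le fun _ => fval_le P hx _ _

lemma le_pot {x : Fin P.n → ℝ} (hx : ∀ i, 0 < x i) :
    ∑ i, x i * (Real.log (x i) - (P.tmax + 1)) ≤ pot P x := by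
  obtain ⟨s, hs⟩ := exists_sort x
  obtain ⟨p, hp, h⟩ := exists_valid_near P (y := x ∘ s) (fun i => hx _) hs
  refine le_trans ?_ (fval_le_pot P hx hp s)
  rw [fval_eq_score]
  unfold score
  rw [Finset.sum_range (fun k => p k * extR (x ∘ s) k - wt P p k)]
  rw [← Equiv.sum_comp s (fun i => x i * (Real.log (x i) - (P.tmax + 1)))]
  refine sum_le_sum fun i _ => ?_
  rw [extR_coe]
  obtain ⟨h1, h2⟩ := h i
  simp only [Function.comp_apply] at h1 h2 ⊢
  have h3 := wt_le_exp P p i.2
  have h4 : Real.exp (p i) ≤ x (s i) := by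
    rw [← Real.exp_log (hx (s i))]; exact Real.exp_le_exp.2 h1
  have h5 : x (s i) * (Real.log (x (s i)) - P.tmax) ≤ x (s i) * p i :=
    mul_le_mul_of_nonneg_left h2 (hx _).le
  linarith

/-- rearrangement -/
lemma fval_le_fval_sort {x : Fin P.n → ℝ} {p : ℕ → ℝ} (hp : ValidTo P p P.n)
    {s : Equiv.Perm (Fin P.n)} (hs : Antitone (x ∘ s)) (s' : Equiv.Perm (Fin P.n)) :
    fval P x p s' ≤ fval P x p s := by
  unfold fval
  have hpa : Antitone (fun i : Fin P.n => p i) := fun i j hij =>
    hp.antitone P (by simpa only [Fin.val_fin_le] using hij) j.2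
  have hmono : Monovary (fun i : Fin P.n => p i) (x ∘ s) := hpa.monovary hs
  have h := hmono.sum_mul_comp_perm_le_sum_mul (σ := s'.trans s.symm)
  simp only [Equiv.trans_apply, Function.comp_apply, Equiv.apply_symm_apply] at h
  linarith

/-- The potential lemma on `Fin P.n`. -/
theorem potential_params {N : ℕ} {δ : ℝ} (hN : ∀ a ∈ P.A P.n, |a| ≤ N) (hlam : P.lam ≤ P.T)
    (hδ : δ ≤ P.T) (hm : (2 * P.n * N + 2) * P.D ^ P.n ≤ P.m P.n)
    {x : Fin P.n → ℝ} (hx : ∀ i, 0 < x i) {ε : ℝ} (hε : 0 < ε) :
    ∃ p : Fin P.n → ℝ,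
      (∀ x' : Fin P.n → ℝ, (∀ i, 0 < x' i) →
        pot P x - ε + ∑ i, p i * (x' i - x i) ≤ pot P x') ∧
      (∀ i, |p i - Real.log (x i)| ≤ P.tmax + P.lam) ∧
      (∀ v : Fin P.n → ℝ, (∀ i, v i ∈ P.A P.n) → 0 < ∑ i, v i * p i →
          δ < ∑ i, v i * Real.log (x i)) := by
  haveI := pot_nonempty P
  obtain ⟨ε', hε', hε'ε, hε'x⟩ := exists_small hx hε
  obtain ⟨q, hq⟩ := exists_lt_of_lt_ciSup (show pot P x - ε' < pot P x by linarith only [hε'])
  obtain ⟨s, hs⟩ := exists_sort x
  set p0 : ℕ → ℝ := q.1.1 with hp0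
  have hval : ValidTo P p0 P.n := q.1.2
  have h1 : pot P x - ε' < fval P x p0 s := lt_of_lt_of_le hq (fval_le_fval_sort P hval hs _)
  have hclose : ∀ j < P.n, |Real.log (extR (x ∘ s) j) - p0 j| ≤ bon P p0 j (p0 j) + P.lam := by
    apply closeness P (ε := ε') (x := extR (x ∘ s))
    · intro i hi
      rw [extR_of_lt _ hi]; exact hx _
    · exact extR_antitone hs
    · exact hval
    · intro i hi
      rw [extR_of_lt _ hi]; exact hε'x _
    · intro p' hp'
      rw [← fval_eq_score, ← fval_eq_score]
      have := fval_le_pot P hx hp' s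
      linarith only [h1, this]
  refine ⟨fun i => p0 (s.symm i), ?_, ?_, ?_⟩
  · intro x' hx'
    have h2 : ∑ i, p0 (s.symm i) * (x' i - x i) = ∑ j : Fin P.n, p0 j * (x' (s j) - x (s j)) := by
      rw [← Equiv.sum_comp s (fun i => p0 (s.symm i) * (x' i - x i))]
      simp only [Equiv.symm_apply_apply]
    rw [h2]
    have h3 : fval P x' p0 s = fval P x p0 s +
        ∑ j : Fin P.n, p0 j * (x' (s j) - x (s j)) := by
      unfold fval
      have : ∑ j : Fin P.n, p0 j * (x' (s j) - x (s j)) =
          ∑ j : Fin P.n, p0 j * x' (s j) - ∑ j : Fin P.n, p0 j * x (s j) := by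
        rw [← sum_sub_distrib]
        exact sum_congr rfl fun j _ => by ring
      rw [this]; ring
    have h4 := fval_le_pot P hx' hval s
    linarith only [hε'ε, h1, h3, h4]
  · intro i
    have h2 := hclose (s.symm i) (s.symm i).2
    rw [extR_coe] at h2
    simp only [Function.comp_apply, Equiv.apply_symm_apply] at h2
    rw [abs_sub_comm]
    have h3 := bon_le_tau P p0 (s.symm i).2 (p0 (s.symm i))
    have h4 := tau_le_tmax P p0 (s.symm i).2
    linarith only [h2, h3, h4]
  · intro v hv hpos
    have h2 := sign_lemma P hval hclose hN hlam hδ hm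
      (fun i => if h : i < P.n then v (s ⟨i, h⟩) else 0) (fun i => by
        split_ifs with h
        · exact hv _
        · exact P.hA0 _) (by
        unfold dot
        rw [Finset.sum_range]
        simp only [Fin.is_lt, dite_true, Fin.eta]
        rw [← Equiv.sum_comp s (fun i => (v i : ℝ) * p0 (s.symm i))] at hpos
        simpa only [Equiv.symm_apply_apply] using hpos)
    unfold dot at h2
    rw [Finset.sum_range] at h2
    simp only [Fin.is_lt, dite_true, Fin.eta, extR_coe, Function.comp_apply] at h2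
    rw [Equiv.sum_comp s (fun i => (v i : ℝ) * Real.log (x i))] at h2
    exact h2

/-- The potential lemma on `Fin n`. -/
theorem exists_potential_fin (n : ℕ) (E : Set ℝ) (hE : E.Finite) (δ : ℝ) :
    ∃ (V : (Fin n → ℝ) → ℝ) (C : ℝ), 0 ≤ C ∧
    (∀ x, (∀ i, 0 < x i) → ∑ i, x i * (Real.log (x i) - C) ≤ V x ∧
        V x ≤ ∑ i, x i * (Real.log (x i) + C)) ∧
    (∀ x, (∀ i, 0 < x i) → ∀ ε > 0, ∃ p : Fin n → ℝ,
       (∀ x', (∀ i, 0 < x' i) → V x - ε + ∑ i, p i * (x' i - x i) ≤ V x') ∧
       (∀ i, |p i - Real.log (x i)| ≤ C) ∧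
       (∀ v : Fin n → ℝ, (∀ i, v i ∈ E) → 0 < ∑ i, v i * p i →
          δ < ∑ i, v i * Real.log (x i))) := by
  obtain ⟨P, N, hPn, hEA, hN, hlam, hδ, hm⟩ := exists_params n E hE δ
  subst hPn
  have ht := tmax_nonneg P
  refine ⟨pot P, P.tmax + 1 + |P.lam|, by positivity, fun x hx => ⟨?_, ?_⟩,
    fun x hx ε hε => ?_⟩
  · refine le_trans (sum_le_sum fun i _ => ?_) (le_pot P hx)
    apply mul_le_mul_of_nonneg_left _ (hx i).le
    have := abs_nonneg P.lam
    linarith only [this]
  · refine le_trans (pot_le P hx) (sum_le_sum fun i _ => ?_)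
    apply mul_le_mul_of_nonneg_left _ (hx i).le
    have := abs_nonneg P.lam
    linarith only [this]
  · obtain ⟨p, h1, h2, h3⟩ := potential_params P hN hlam hδ hm hx hε
    refine ⟨p, h1, fun i => (h2 i).trans ?_, fun v hv => h3 v fun i => hEA (hv i)⟩
    have := le_abs_self P.lam
    linarith only [this]

end Vale.Agent.N072R.Pot

namespace Vale.Agent.N072R

open Finset

variable {d : ℕ}

/-- PART A: potential lemma, on a set `I` of coordinates. -/
theorem exists_potential_subset (I : Finset (Fin d)) (E : Set ℝ) (hE : E.Finite) (δ : ℝ) :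
    ∃ (V : (Fin d → ℝ) → ℝ) (C : ℝ), 0 ≤ C ∧
    (∀ x, (∀ i ∈ I, 0 < x i) → ∑ i ∈ I, x i * (Real.log (x i) - C) ≤ V x ∧
        V x ≤ ∑ i ∈ I, x i * (Real.log (x i) + C)) ∧
    (∀ x, (∀ i ∈ I, 0 < x i) → ∀ ε > 0, ∃ p : Fin d → ℝ, (∀ i ∉ I, p i = 0) ∧
       (∀ x', (∀ i ∈ I, 0 < x' i) → V x - ε + ∑ i, p i * (x' i - x i) ≤ V x') ∧
       (∀ i ∈ I, |p i - Real.log (x i)| ≤ C) ∧
       (∀ v : Fin d → ℝ, (∀ i, v i ∈ E) → 0 < ∑ i, v i * p i →
          δ < ∑ i ∈ I, v i * Real.log (x i))) := by
  classical
  obtain ⟨V, C, hC, hbd, hgrad⟩ := Pot.exists_potential_fin I.card E hE δ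
  set e : I ≃ Fin I.card := I.equivFin with he
  -- reindexing of sums over `I`
  have hsum : ∀ g : Fin d → ℝ, ∑ i ∈ I, g i = ∑ j : Fin I.card, g (e.symm j) := by
    intro g
    rw [← Finset.sum_coe_sort I g]
    exact (Equiv.sum_comp e.symm (fun i : I => g i)).symm
  refine ⟨fun x => V (fun j => x (e.symm j)), C, hC, fun x hx => ?_, fun x hx ε hε => ?_⟩
  · have h := hbd (fun j => x (e.symm j)) (fun j => hx _ (e.symm j).2)
    rw [hsum, hsum]
    exact h
  · obtain ⟨p, h1, h2, h3⟩ := hgrad (fun j => x (e.symm j)) (fun j => hx _ (e.symm j).2) ε hε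
    -- sums against the extended covector
    have hp : ∀ g : Fin d → ℝ, ∑ i, (if h : i ∈ I then p (e ⟨i, h⟩) else 0) * g i =
        ∑ j : Fin I.card, p j * g (e.symm j) := by
      intro g
      rw [← Finset.sum_subset (Finset.subset_univ I) (fun i _ hi => by simp [hi]),
        hsum]
      refine sum_congr rfl fun j _ => ?_
      simp
    refine ⟨fun i => if h : i ∈ I then p (e ⟨i, h⟩) else 0, fun i hi => by simp [hi],
      fun x' hx' => ?_, fun i hi => ?_, fun v hv hpos => ?_⟩
    · have h := h1 (fun j => x' (e.symm j)) (fun j => hx' _ (e.symm j).2)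
      rw [hp (fun i => x' i - x i)]
      exact h
    · have h := h2 (e ⟨i, hi⟩)
      simp only [Equiv.symm_apply_apply] at h
      simpa only [hi, ↓reduceDIte, ge_iff_le] using h
    · have h4 : ∑ i, (v i : ℝ) * (if h : i ∈ I then p (e ⟨i, h⟩) else 0) =
          ∑ j : Fin I.card, (v (e.symm j) : ℝ) * p j := by
        have := hp (fun i => (v i : ℝ))
        simp only [mul_comm] at this ⊢
        rw [this]
      rw [h4] at hpos
      have h5 := h3 (fun j => v (e.symm j)) (fun j => hv _) hpos
      rw [hsum]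
      exact h5

/-- The potential lemma for a finite set of real vectors. -/
theorem exists_potential (I : Finset (Fin d)) (W : Finset (Fin d → ℝ)) (δ : ℝ) :
    ∃ (V : (Fin d → ℝ) → ℝ) (C : ℝ), 0 ≤ C ∧
    (∀ x, (∀ i ∈ I, 0 < x i) → ∑ i ∈ I, x i * (Real.log (x i) - C) ≤ V x ∧
        V x ≤ ∑ i ∈ I, x i * (Real.log (x i) + C)) ∧
    (∀ x, (∀ i ∈ I, 0 < x i) → ∀ ε > 0, ∃ p : Fin d → ℝ, (∀ i ∉ I, p i = 0) ∧
       (∀ x', (∀ i ∈ I, 0 < x' i) → V x - ε + ∑ i, p i * (x' i - x i) ≤ V x') ∧
       (∀ i ∈ I, |p i - Real.log (x i)| ≤ C) ∧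
       (∀ v ∈ W, 0 < ∑ i, v i * p i → δ < ∑ i ∈ I, v i * Real.log (x i))) := by
  have hE : (⋃ v ∈ (W : Set (Fin d → ℝ)), Set.range v).Finite :=
    W.finite_toSet.biUnion fun v _ => Set.finite_range v
  obtain ⟨V, C, hC, hbd, hgrad⟩ := exists_potential_subset I _ hE δ
  refine ⟨V, C, hC, hbd, fun x hx ε hε => ?_⟩
  obtain ⟨p, h0, h1, h2, h3⟩ := hgrad x hx ε hε
  exact ⟨p, h0, h1, h2, fun v hv => h3 v fun i => Set.mem_biUnion hv (Set.mem_range_self i)⟩

end Vale.Agent.N072R
end
end
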