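import Vale.Agent.N072R.Abs
import Mathlib.Geometry.Convex.Cone.Pointed

/-! # Toric differential inclusions -/

set_option linter.all false

namespace Vale.Agent.N072R

open MeasureTheory
open Vale.Agent.P072 (exists_pos_le bound_of_sum)

variable {d : ℕ}

/-- One step of Fourier-Motzkin elimination. -/
theorem fourier_motzkin (H : Finset (Fin d → ℝ)) (a : Fin d → ℝ) :
    ∃ H' : Finset (Fin d → ℝ), ∀ y : Fin d → ℝ,
      (∃ t : ℝ, 0 ≤ t ∧ ∀ v ∈ H, v ⬝ᵥ (y - t • a) ≤ 0) ↔ ∀ v ∈ H', v ⬝ᵥ y ≤ 0 := by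
  classical
  let P := H.filter fun v => 0 < v ⬝ᵥ a
  let N := H.filter fun v => v ⬝ᵥ a ≤ 0
  refine ⟨N ∪ (P ×ˢ N).image fun q => (q.1 ⬝ᵥ a) • q.2 - (q.2 ⬝ᵥ a) • q.1, fun y => ⟨?_, ?_⟩⟩
  · rintro ⟨t, ht, h⟩ v hv
    have h' : ∀ v ∈ H, v ⬝ᵥ y ≤ t * (v ⬝ᵥ a) := fun v hv => by
      have := h v hv
      rw [dotProduct_sub, dotProduct_smul, smul_eq_mul] at this
      linarith
    rcases Finset.mem_union.1 hv with hv | hv
    · obtain ⟨h1, h2⟩ := Finset.mem_filter.1 hv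
      have := h' v h1
      nlinarith
    · obtain ⟨⟨v1, v2⟩, hq, rfl⟩ := Finset.mem_image.1 hv
      obtain ⟨hq1, hq2⟩ := Finset.mem_product.1 hq
      obtain ⟨h1, h2⟩ := Finset.mem_filter.1 hq1
      obtain ⟨h3, h4⟩ := Finset.mem_filter.1 hq2
      have e1 := h' _ h1
      have e2 := h' _ h3
      simp only [sub_dotProduct, smul_dotProduct, smul_eq_mul] at *
      nlinarith
  · intro h
    have hN : ∀ v ∈ H, v ⬝ᵥ a ≤ 0 → v ⬝ᵥ y ≤ 0 := fun v hv hva =>
      h v (Finset.mem_union_left _ (Finset.mem_filter.2 ⟨hv, hva⟩))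
    have hPN : ∀ v1 ∈ H, 0 < v1 ⬝ᵥ a → ∀ v2 ∈ H, v2 ⬝ᵥ a ≤ 0 →
        (v1 ⬝ᵥ a) * (v2 ⬝ᵥ y) - (v2 ⬝ᵥ a) * (v1 ⬝ᵥ y) ≤ 0 := by
      intro v1 h1 h2 v2 h3 h4
      have := h _ (Finset.mem_union_right _ (Finset.mem_image.2 ⟨(v1, v2),
        Finset.mem_product.2 ⟨Finset.mem_filter.2 ⟨h1, h2⟩, Finset.mem_filter.2 ⟨h3, h4⟩⟩, rfl⟩))
      simpa only [sub_dotProduct, smul_dotProduct, smul_eq_mul] using this
    -- the least admissible value of the parameter
    obtain ⟨t, htm, htmax⟩ := Finset.exists_max_image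
      (insert 0 (P.image fun v => (v ⬝ᵥ y) / (v ⬝ᵥ a))) id (Finset.insert_nonempty _ _)
    have ht0 : 0 ≤ t := htmax 0 (Finset.mem_insert_self _ _)
    refine ⟨t, ht0, fun v hv => ?_⟩
    rw [dotProduct_sub, dotProduct_smul, smul_eq_mul]
    rcases lt_or_ge 0 (v ⬝ᵥ a) with hva | hva
    · have : (v ⬝ᵥ y) / (v ⬝ᵥ a) ≤ t := htmax _ (Finset.mem_insert_of_mem
        (Finset.mem_image_of_mem _ (Finset.mem_filter.2 ⟨hv, hva⟩)))
      rw [div_le_iff₀ hva] at this
      linarith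
    · rcases Finset.mem_insert.1 htm with h0 | h0
      · rw [h0]; have := hN v hv hva; linarith
      · obtain ⟨w, hw, rfl⟩ := Finset.mem_image.1 h0
        obtain ⟨h1, h2⟩ := Finset.mem_filter.1 hw
        have e1 := hPN w h1 h2 v hv hva
        have e2 : v ⬝ᵥ y ≤ (v ⬝ᵥ a) * (w ⬝ᵥ y) / (w ⬝ᵥ a) := by
          rw [le_div_iff₀ h2]; linarith
        have e3 : (v ⬝ᵥ a) * (w ⬝ᵥ y) / (w ⬝ᵥ a) = (w ⬝ᵥ y) / (w ⬝ᵥ a) * (v ⬝ᵥ a) := by ring
        linarith

/-- Weyl's theorem: a finitely generated cone is cut out by finitely many inequalities. -/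
theorem weyl (S : Finset (Fin d → ℝ)) :
    ∃ H : Finset (Fin d → ℝ), ∀ y : Fin d → ℝ,
      y ∈ PointedCone.hull ℝ (S : Set (Fin d → ℝ)) ↔ ∀ v ∈ H, v ⬝ᵥ y ≤ 0 := by
  classical
  induction S using Finset.induction_on with
  | empty =>
    let e : Fin d → Fin d → ℝ := fun i => Pi.single i 1
    refine ⟨Finset.univ.image e ∪ Finset.univ.image (fun i => -e i), fun y => ?_⟩
    rw [Finset.coe_empty, PointedCone.hull, Submodule.span_empty, Submodule.mem_bot]
    constructor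
    · rintro rfl v _; simp
    · intro h
      funext i
      have h1 := h (e i) (Finset.mem_union_left _ (Finset.mem_image.2 ⟨i, Finset.mem_univ i, rfl⟩))
      have h2 := h (-e i)
        (Finset.mem_union_right _ (Finset.mem_image.2 ⟨i, Finset.mem_univ i, rfl⟩))
      simp only [e, neg_dotProduct, single_dotProduct, one_mul] at h1 h2
      show y i = 0
      linarith
  | insert a S _ ih =>
    obtain ⟨H, hH⟩ := ih
    obtain ⟨H', hH'⟩ := fourier_motzkin H a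
    refine ⟨H', fun y => ?_⟩
    rw [← hH', Finset.coe_insert, Submodule.mem_span_insert]
    constructor
    · rintro ⟨t, z, hz, rfl⟩
      refine ⟨t.1, t.2, (hH _).1 ?_⟩
      have : t • a + z - t.1 • a = z := by
        show t.1 • a + z - t.1 • a = z
        abel
      rw [this]; exact hz
    · rintro ⟨t, ht, h⟩
      refine ⟨⟨t, ht⟩, y - t • a, (hH _).2 h, ?_⟩
      show y = t • a + (y - t • a)
      abel

/-- Dissipativity of toric inclusions, for any finite family of cones given by inequalities. -/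
theorem diss_of_ineq {α : Type*} (A : Finset α) (C : α → Set (Fin d → ℝ))
    (H : α → Finset (Fin d → ℝ)) (hH : ∀ a ∈ A, ∀ y, y ∈ C a ↔ ∀ v ∈ H a, v ⬝ᵥ y ≤ 0) (δ : ℝ) :
    ∃ (W : Finset (Fin d → ℝ)) (δ' : ℝ), Diss W δ' fun y => (PointedCone.hull ℝ
      {u | ∃ a ∈ A, Metric.infDist (fun i => Real.log (y i)) (C a) ≤ δ ∧
        ∀ Y ∈ C a, u ⬝ᵥ Y ≤ 0} : Set (Fin d → ℝ)) := by
  classical
  set W := A.biUnion H with hW
  set M : ℝ := ∑ v ∈ W, ∑ i, |v i| with hM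
  have hMv : ∀ v ∈ W, ∑ i, |v i| ≤ M := fun v hv =>
    Finset.single_le_sum (f := fun v : Fin d → ℝ => ∑ i, |v i|)
      (fun v _ => Finset.sum_nonneg fun i _ => abs_nonneg _) hv
  refine ⟨W, M * (|δ| + 1), fun y hy p hal u hu => ?_⟩
  have key : ∀ a ∈ A, Metric.infDist (fun i => Real.log (y i)) (C a) ≤ δ → p ∈ C a := by
    intro a ha hd
    rw [hH a ha]
    intro v hv
    by_contra hcon
    push Not at hcon
    have hvW : v ∈ W := Finset.mem_biUnion.2 ⟨a, ha, hv⟩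
    have h2 := hal v hvW hcon
    obtain ⟨Y, hY, hYd⟩ := (Metric.infDist_lt_iff (s := C a)
      ⟨0, (hH a ha 0).2 (by simp)⟩).1
      (lt_of_le_of_lt hd (by linarith [le_abs_self δ] : δ < |δ| + 1))
    have h3 : v ⬝ᵥ Y ≤ 0 := (hH a ha Y).1 hY v hv
    have h4 : ∑ i, v i * Real.log (y i) - v ⬝ᵥ Y ≤ M * (|δ| + 1) := by
      unfold dotProduct
      rw [← Finset.sum_sub_distrib]
      calc ∑ i, (v i * Real.log (y i) - v i * Y i) ≤ ∑ i, |v i| * (|δ| + 1) := by
            refine Finset.sum_le_sum fun i _ => ?_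
            rw [← mul_sub]
            refine (le_abs_self _).trans ?_
            rw [abs_mul]
            refine mul_le_mul_of_nonneg_left ?_ (abs_nonneg _)
            have := (dist_le_pi_dist (fun i => Real.log (y i)) Y i).trans hYd.le
            rwa [Real.dist_eq] at this
        _ = (∑ i, |v i|) * (|δ| + 1) := by rw [Finset.sum_mul]
        _ ≤ M * (|δ| + 1) := mul_le_mul_of_nonneg_right (hMv v hvW) (by positivity)
    linarith
  show p ⬝ᵥ u ≤ 0
  refine Submodule.span_induction (p := fun u _ => p ⬝ᵥ u ≤ 0) ?_ ?_ ?_ ?_ hu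
  · rintro w ⟨a, ha, hd, hw⟩
    rw [dotProduct_comm]
    exact hw p (key a ha hd)
  · simp
  · intro a b _ _ ha hb
    rw [dotProduct_add]; linarith
  · intro t a _ ha
    show p ⬝ᵥ (t.1 • a) ≤ 0
    rw [dotProduct_smul, smul_eq_mul]
    exact mul_nonpos_of_nonneg_of_nonpos t.2 ha

/-- Finitely generated cones. -/
theorem toric_diss_fg (fan : Finset (PointedCone ℝ (Fin d → ℝ))) (hfg : ∀ C ∈ fan, C.FG)
    (δ : ℝ) :
    ∃ (W : Finset (Fin d → ℝ)) (δ' : ℝ), Diss W δ' fun y => (PointedCone.hull ℝ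
      {u | ∃ C ∈ fan, Metric.infDist (fun i => Real.log (y i)) (C : Set (Fin d → ℝ)) ≤ δ ∧
        ∀ Y ∈ C, u ⬝ᵥ Y ≤ 0} : Set (Fin d → ℝ)) := by
  have h1 : ∀ C : PointedCone ℝ (Fin d → ℝ), ∃ H : Finset (Fin d → ℝ), C ∈ fan →
      ∀ y, y ∈ C ↔ ∀ v ∈ H, v ⬝ᵥ y ≤ 0 := by
    intro C
    by_cases hC : C ∈ fan
    · obtain ⟨S, hS⟩ := hfg C hC
      obtain ⟨H, hH⟩ := weyl S
      exact ⟨H, fun _ y => by rw [← hS]; exact hH y⟩
    · exact ⟨∅, fun h => absurd h hC⟩
  choose H hH using h1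
  exact diss_of_ineq fan (fun C => (C : Set (Fin d → ℝ))) H (fun C hC y => hH C hC y) δ

theorem exists_box {Q : Set (Fin d → ℝ)} (hQ : IsCompact Q) (hQ0 : ∀ y ∈ Q, ∀ i, 0 < y i) :
    ∃ ε > 0, ∃ B : ℝ, ∀ y ∈ Q, ∀ i, ε ≤ y i ∧ y i ≤ B := by
  have h1 : ∀ i : Fin d, ∃ ε > 0, ∀ y ∈ Q, ε ≤ y i := by
    intro i
    rcases Q.eq_empty_or_nonempty with rfl | hne
    · exact ⟨1, one_pos, by simp⟩
    · obtain ⟨z, hz, hmin⟩ := hQ.exists_isMinOn hne (continuous_apply i).continuousOn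
      exact ⟨z i, hQ0 z hz i, fun y hy => hmin hy⟩
  choose e he he' using h1
  obtain ⟨ε, hε, hle⟩ := exists_pos_le e he
  obtain ⟨B, hB⟩ := hQ.isBounded.exists_norm_le
  exact ⟨ε, hε, B, fun y hy i => ⟨(hle i).trans (he' i y hy),
    (le_abs_self _).trans ((norm_le_pi_norm y i).trans (hB y hy))⟩⟩

theorem isCompact_box (κ B : ℝ) : IsCompact {y : Fin d → ℝ | ∀ i, κ ≤ y i ∧ y i ≤ B} := by
  have : {y : Fin d → ℝ | ∀ i, κ ≤ y i ∧ y i ≤ B} =
      Set.pi Set.univ (fun _ : Fin d => Set.Icc κ B) := by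
    ext y; simp only [Set.mem_setOf_eq, Set.mem_pi, Set.mem_univ, true_implies, Set.mem_Icc]
  rw [this]
  exact isCompact_univ_pi fun _ => isCompact_Icc

/-! ### Implicit chains with arbitrary steps -/

variable {F : (Fin d → ℝ) → Set (Fin d → ℝ)} {W : Finset (Fin d → ℝ)} {δ : ℝ}
  {I : Finset (Fin d)} {κ B C : ℝ} {V : (Fin d → ℝ) → ℝ}

/-- A finite positive chain whose steps lie in `F` at their end points. -/
def Chain (F : (Fin d → ℝ) → Set (Fin d → ℝ)) (z : ℕ → Fin d → ℝ) (N : ℕ) : Prop :=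
  (∀ n ≤ N, ∀ i, 0 < z n i) ∧ ∀ n < N, z (n + 1) - z n ∈ F (z (n + 1))

theorem Chain.mono {z : ℕ → Fin d → ℝ} {N M : ℕ} (h : Chain F z N) (hM : M ≤ N) : Chain F z M :=
  ⟨fun n hn => h.1 n (hn.trans hM), fun n hn => h.2 n (hn.trans_le hM)⟩

theorem IsPot.step (hV : IsPot W δ I κ B V C) (hF : Diss W δ F) {a b : Fin d → ℝ}
    (ha : ∀ i, 0 < a i) (hb : ∀ i, 0 < b i) (hreg : ∀ i ∉ I, κ ≤ b i ∧ b i ≤ B)
    (hab : b - a ∈ F b) {s : ℝ} (hs0 : 0 ≤ s) (hs1 : s ≤ 1) :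
    V b ≤ V (fun i => b i + s * (a i - b i)) := by
  apply le_of_forall_pos_le_add
  intro ε hε
  obtain ⟨p, -, h2, -, h4⟩ := hV.grad b hb hreg ε hε
  have h5 := h2 (fun i => b i + s * (a i - b i)) (fun i _ => by
    have := ha i
    have := hb i
    rcases hs1.eq_or_lt with rfl | h
    · linarith
    · nlinarith)
  have h6 := hF b hb p (fun v hv hp => by have := h4 v hv hp; linarith) _ hab
  have h7 : ∑ i, p i * (b i + s * (a i - b i) - b i) = -s * ∑ i, p i * (b - a) i := by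
    rw [Finset.mul_sum]
    refine Finset.sum_congr rfl fun i _ => ?_
    rw [Pi.sub_apply]; ring
  rw [h7] at h5
  nlinarith

theorem IsPot.le_of_level (hV : IsPot W δ I κ B V C) {ε : ℝ} (hεC : Real.log ε + C < 0)
    {y : Fin d → ℝ} (hy : ∀ i ∈ I, 0 < y i) (hle : ∀ i ∈ I, y i ≤ ε) {j : Fin d} (hj : j ∈ I)
    (hyj : y j = ε) : V y ≤ ε * (Real.log ε + C) := by
  refine (hV.upper y hy).trans ?_
  have hterm : ∀ i ∈ I, y i * (Real.log (y i) + C) ≤ 0 := by
    intro i hi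
    have h1 : Real.log (y i) ≤ Real.log ε := Real.log_le_log (hy i hi) (hle i hi)
    exact mul_nonpos_of_nonneg_of_nonpos (hy i hi).le (by linarith only [hεC, h1])
  have := Finset.single_le_sum (f := fun i => -(y i * (Real.log (y i) + C)))
    (fun i hi => by have := hterm i hi; linarith only [this]) hj
  simp only [Finset.sum_neg_distrib] at this
  rw [hyj] at this
  linarith only [this]

theorem IsPot.exists_level (hV : IsPot W δ I κ B V C) {μ : ℝ} (hμ : 0 < μ) :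
    ∃ κ₀ > 0, ∀ y : Fin d → ℝ, (∀ i ∈ I, 0 < y i) → (∀ i ∈ I, y i < κ₀) → -μ < V y := by
  have hcont : Continuous fun y : ℝ => y * (Real.log y - C) := by
    have : (fun y : ℝ => y * (Real.log y - C)) = fun y => y * Real.log y - y * C := by
      ext y; ring
    rw [this]
    exact Real.continuous_mul_log.sub (continuous_id.mul continuous_const)
  have hμd : 0 < μ / (d + 1) := by positivity
  obtain ⟨κ₀, hκ₀, hκ⟩ := Metric.continuous_iff.mp hcont 0 (μ / (d + 1)) hμd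
  refine ⟨κ₀, hκ₀, fun y hy hlt => lt_of_lt_of_le ?_ (hV.lower y hy)⟩
  have hterm : ∀ i ∈ I, -(μ / (d + 1)) ≤ y i * (Real.log (y i) - C) := by
    intro i hi
    have h1 : dist (y i) 0 < κ₀ := by
      rw [Real.dist_eq, sub_zero, abs_of_pos (hy i hi)]
      exact hlt i hi
    have h2 := hκ (y i) h1
    rw [Real.dist_eq] at h2
    have h3 := (abs_lt.mp h2).1
    simp only [zero_mul] at h3
    linarith only [h3]
  have h1 := Finset.sum_le_sum hterm
  rw [Finset.sum_const, nsmul_eq_mul] at h1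
  refine lt_of_lt_of_le ?_ h1
  have h2 : (I.card : ℝ) ≤ d := by
    have := Finset.card_le_univ I
    rw [Fintype.card_fin] at this
    exact_mod_cast this
  have h3 : (I.card : ℝ) * (μ / (d + 1)) ≤ d * (μ / (d + 1)) :=
    mul_le_mul_of_nonneg_right h2 hμd.le
  have h4 : (d : ℝ) * (μ / (d + 1)) < μ := by
    rw [mul_div_assoc', div_lt_iff₀ (by positivity)]
    nlinarith only [hμ]
  linarith only [h3, h4]

theorem chain_exit {κ' : ℝ} (hV : IsPot W δ I κ' B V C) (hF : Diss W δ F) {ε : ℝ} (hε : 0 < ε)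
    (hεC : Real.log ε + C < 0) :
    ∃ κ > 0, ∀ (z : ℕ → Fin d → ℝ) (N : ℕ), Chain F z N →
      (∀ n ≤ N, (∀ i ∈ I, z n i ≤ ε) → ∀ i ∉ I, κ' ≤ z n i ∧ z n i ≤ B) →
      (∃ i ∈ I, ε ≤ z 0 i) → ∃ i ∈ I, κ ≤ z N i := by
  classical
  obtain ⟨κ₀, hκ₀, hlev⟩ := hV.exists_level (μ := -(ε * (Real.log ε + C))) (by nlinarith)
  refine ⟨min κ₀ ε, lt_min hκ₀ hε, fun z N hz hreg h0 => ?_⟩
  have key : ∀ n ≤ N, (∃ i ∈ I, ε ≤ z n i) ∨ V (z n) ≤ ε * (Real.log ε + C) := by
    intro n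
    induction n with
    | zero => exact fun _ => Or.inl h0
    | succ n ih =>
      intro hn
      by_cases hb : ∃ i ∈ I, ε ≤ z (n + 1) i
      · exact Or.inl hb
      right
      push Not at hb
      have hpa := hz.1 n (by omega)
      have hpb := hz.1 (n + 1) hn
      have hstep := fun (s : ℝ) (h1 : 0 ≤ s) (h2 : s ≤ 1) => hV.step hF hpa hpb
        (hreg (n + 1) hn fun i hi => (hb i hi).le) (hz.2 n (by omega)) h1 h2
      rcases ih (by omega) with ⟨i, hi, hi'⟩ | h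
      · obtain ⟨j, hj, hmin⟩ := Finset.exists_min_image (I.filter fun i => ε ≤ z n i)
          (fun i => (ε - z (n + 1) i) / (z n i - z (n + 1) i)) ⟨i, Finset.mem_filter.2 ⟨hi, hi'⟩⟩
        obtain ⟨hjI, hj'⟩ := Finset.mem_filter.1 hj
        have hjb := hb j hjI
        have hden : 0 < z n j - z (n + 1) j := by linarith
        set s := (ε - z (n + 1) j) / (z n j - z (n + 1) j) with hs
        have hs0 : 0 ≤ s := div_nonneg (by linarith) hden.le
        have hs1 : s ≤ 1 := (div_le_one hden).2 (by linarith)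
        refine (hstep s hs0 hs1).trans (hV.le_of_level hεC (fun k _ => ?_) (fun k hk => ?_) hjI ?_)
        · have := hpa k
          have := hpb k
          rcases hs1.eq_or_lt with h | h
          · rw [h]; linarith
          · nlinarith
        · have hkb := hb k hk
          rcases le_or_gt ε (z n k) with h | h
          · have h1 := hmin k (Finset.mem_filter.2 ⟨hk, h⟩)
            rw [le_div_iff₀ (by linarith)] at h1
            linarith
          · nlinarith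
        · rw [hs]; field_simp; ring
      · refine (hstep 1 zero_le_one le_rfl).trans (le_of_eq_of_le ?_ h)
        congr 1
        funext i
        ring
  by_contra hcon
  push Not at hcon
  rcases key N le_rfl with ⟨i, hi, hi'⟩ | h
  · exact absurd ((hcon i hi).trans_le (min_le_right _ _)) (not_lt.2 hi')
  · have := hlev (z N) (fun i _ => hz.1 N le_rfl i)
      (fun i hi => (hcon i hi).trans_le (min_le_left _ _))
    linarith

theorem chain_low (hF : Diss W δ F) (B ε₀ : ℝ) (hε₀ : 0 < ε₀) :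
    ∀ (n : ℕ) (I : Finset (Fin d)), I.Nonempty → Iᶜ.card < n →
      ∃ κ > 0, ∀ (x : ℕ → Fin d → ℝ) (t : ℕ), Chain F x t →
        (∀ i, ε₀ ≤ x 0 i) → (∀ r ≤ t, ∀ i, x r i ≤ B) → ∃ i ∈ I, κ ≤ x t i := by
  intro n
  induction n with
  | zero => intro I _ h; exact absurd h (Nat.not_lt_zero _)
  | succ n ih =>
    intro I hI hIn
    have hstep : ∀ j : Fin d, ∃ κ > 0, j ∉ I → ∀ (x : ℕ → Fin d → ℝ) (t : ℕ),
        Chain F x t → (∀ i, ε₀ ≤ x 0 i) →
        (∀ r ≤ t, ∀ i, x r i ≤ B) → ∃ i ∈ insert j I, κ ≤ x t i := by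
      intro j
      by_cases hj : j ∈ I
      · exact ⟨1, one_pos, fun h => absurd hj h⟩
      · have hcard : (insert j I)ᶜ.card < n := by
          have h1 : (insert j I)ᶜ ⊂ Iᶜ := by
            rw [Finset.compl_ssubset_compl]
            exact Finset.ssubset_insert hj
          have := Finset.card_lt_card h1
          omega
        obtain ⟨κ, hκ, h⟩ := ih (insert j I) (Finset.insert_nonempty _ _) hcard
        exact ⟨κ, hκ, fun _ => h⟩
    choose κf hκf hκ using hstep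
    obtain ⟨κ', hκ', hκ'le⟩ := exists_pos_le κf hκf
    obtain ⟨V, C, hV⟩ := exists_isPot W δ I κ' B hκ'
    -- choose ε
    obtain ⟨ε, hε0, hε1, hε2, hε3⟩ : ∃ ε : ℝ, 0 < ε ∧ ε < κ' ∧ ε ≤ ε₀ ∧ Real.log ε + C < 0 := by
      obtain ⟨e, he, hle⟩ := exists_pos_le (ι := Fin 3) ![κ' / 2, ε₀, Real.exp (-C - 1)] (by
        intro i; fin_cases i
        · show 0 < κ' / 2; linarith only [hκ']
        · exact hε₀
        · exact Real.exp_pos _)
      refine ⟨e, he, ?_, hle 1, ?_⟩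
      · have := hle 0
        simp only [Matrix.cons_val_zero] at this
        linarith only [he, this]
      · have h2 : e ≤ Real.exp (-C - 1) := hle 2
        have h3 : Real.log e ≤ -C - 1 := (Real.log_le_iff_le_exp he).mpr h2
        linarith only [h3]
    obtain ⟨κ, hκ0, hex⟩ := chain_exit hV hF hε0 hε3
    refine ⟨κ, hκ0, ?_⟩
    intro x t hx hx0 hxB
    apply hex x t hx
    · intro r hr hrI j hj
      refine ⟨?_, hxB r hr j⟩
      obtain ⟨i, hi, hi'⟩ := hκ j hj x r (hx.mono hr) hx0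
        (fun r' hr' => hxB r' (hr'.trans hr))
      rcases Finset.mem_insert.mp hi with h | h
      · rw [h] at hi'
        exact (hκ'le j).trans hi'
      · exfalso
        have h1 := hrI i h
        have h2 := hκ'le j
        linarith only [hε1, hi', h1, h2]
    · obtain ⟨i, hi⟩ := hI
      exact ⟨i, hi, hε2.trans (hx0 i)⟩

theorem chain_up (hF : Diss W δ F) (B₀ : ℝ) :
    ∃ B, ∀ (x : ℕ → Fin d → ℝ) (t : ℕ), Chain F x t → (∀ i, x 0 i ≤ B₀) →
      ∀ i, x t i ≤ B := by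
  obtain ⟨V, C, hV⟩ := exists_isPot W δ Finset.univ 1 1 one_pos
  refine ⟨max (Real.exp (C + 1)) (d * (|B₀| * (|B₀| + C)) + d * Real.exp C), ?_⟩
  intro x t hx hx0 i
  have h0 : ∀ n ≤ t, V (x n) ≤ V (x 0) := by
    intro n
    induction n with
    | zero => exact fun _ => le_rfl
    | succ n ih =>
      intro hn
      have := hV.step hF (hx.1 n (by omega)) (hx.1 (n + 1) hn)
        (fun i hi => absurd (Finset.mem_univ i) hi) (hx.2 n (by omega)) zero_le_one le_rfl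
      refine this.trans (le_of_eq_of_le ?_ (ih (by omega)))
      congr 1
      funext i
      ring
  have h1 := h0 t le_rfl
  have hpos := hx.1 t le_rfl
  have hpos0 := hx.1 0 (Nat.zero_le _)
  have h2 : V (x 0) ≤ d * (|B₀| * (|B₀| + C)) := by
    refine (hV.upper (x 0) fun i _ => hpos0 i).trans ?_
    have hC := hV.C_nonneg
    calc ∑ i, x 0 i * (Real.log (x 0 i) + C) ≤ ∑ _i : Fin d, |B₀| * (|B₀| + C) := by
          refine Finset.sum_le_sum fun j _ => ?_
          have e1 : x 0 j ≤ |B₀| := (hx0 j).trans (le_abs_self _)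
          have e2 : Real.log (x 0 j) ≤ x 0 j := (Real.log_le_sub_one_of_pos (hpos0 j)).trans
            (by linarith)
          calc x 0 j * (Real.log (x 0 j) + C) ≤ x 0 j * (|B₀| + C) :=
                mul_le_mul_of_nonneg_left (by linarith) (hpos0 j).le
            _ ≤ _ := mul_le_mul_of_nonneg_right e1 (by positivity)
      _ = _ := by simp
  exact bound_of_sum C _ (x t) hpos (((hV.lower (x t) (fun i _ => hpos i)).trans h1).trans h2) i

/-- Chains from a box stay in a box. -/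
theorem chain_box (hF : Diss W δ F) (ε₀ B₀ : ℝ) (hε₀ : 0 < ε₀) :
    ∃ κ > 0, ∃ B, ∀ (x : ℕ → Fin d → ℝ) (t : ℕ), Chain F x t →
      (∀ i, ε₀ ≤ x 0 i ∧ x 0 i ≤ B₀) → ∀ i, κ ≤ x t i ∧ x t i ≤ B := by
  obtain ⟨B, hB⟩ := chain_up hF B₀
  have h1 : ∀ i : Fin d, ∃ κ > 0, ∀ (x : ℕ → Fin d → ℝ) (t : ℕ),
      Chain F x t → (∀ i, ε₀ ≤ x 0 i) → (∀ r ≤ t, ∀ i, x r i ≤ B) →
      κ ≤ x t i := by
    intro i
    obtain ⟨κ, hκ, h⟩ := chain_low hF B ε₀ hε₀ _ {i} (Finset.singleton_nonempty i)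
      (Nat.lt_succ_self _)
    refine ⟨κ, hκ, fun x t hx hx0 hxB => ?_⟩
    obtain ⟨j, hj, hj'⟩ := h x t hx hx0 hxB
    rw [Finset.mem_singleton] at hj
    rw [hj] at hj'
    exact hj'
  choose κf hκf hκ using h1
  obtain ⟨κ, hκ0, hκle⟩ := exists_pos_le κf hκf
  refine ⟨κ, hκ0, B, fun x t hx hx0 i => ⟨?_, hB x t hx (fun j => (hx0 j).2) i⟩⟩
  exact (hκle i).trans (hκ i x t hx (fun j => (hx0 j).1)
    (fun r hr j => hB x r (hx.mono hr) (fun j => (hx0 j).2) j))

/-- Implicit schemes with arbitrary steps stay in a box. -/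
theorem discrete_box (hF : Diss W δ F) (κ₀ B₀ : ℝ) (hκ₀ : 0 < κ₀) :
    ∃ κ > 0, ∃ B, ∀ z : ℕ → Fin d → ℝ, (∀ n i, 0 < z n i) → (∀ i, κ₀ ≤ z 0 i ∧ z 0 i ≤ B₀) →
      (∀ n, z (n + 1) - z n ∈ F (z (n + 1))) → ∀ n i, κ ≤ z n i ∧ z n i ≤ B := by
  obtain ⟨κ, hκ, B, h⟩ := chain_box hF κ₀ B₀ hκ₀
  exact ⟨κ, hκ, B, fun z h1 h2 h3 n => h z n ⟨fun m _ => h1 m, fun m _ => h3 m⟩ h2⟩

end Vale.Agent.N072R
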