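import Vale.Agent.N072R.Abs

/-! # Strictly dissipative inclusions: uniform entering times -/

set_option linter.all false

namespace Vale.Agent.N072R

open MeasureTheory
open Vale.Agent.P072 (sum_ge bound_of_sum exists_pos_le)

variable {d : ℕ} {F : (Fin d → ℝ) → Set (Fin d → ℝ)} {W R : Finset (Fin d → ℝ)} {δ : ℝ}
  {I : Finset (Fin d)} {κ B C : ℝ} {V : (Fin d → ℝ) → ℝ}

/-- The property `P` holds along all curves in the class of `c` after a time that depends only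
on the initial box. -/
def Ev (F : (Fin d → ℝ) → Set (Fin d → ℝ)) (R : Finset (Fin d → ℝ)) (c : Fin d → ℝ)
    (P : (Fin d → ℝ) → Prop) : Prop :=
  ∀ κ₀ > 0, ∀ B₀ : ℝ, ∃ T ≥ 0, ∀ (x : ℝ → Fin d → ℝ) (b : ℝ), Curve F x 0 b →
    (∀ i, κ₀ ≤ x 0 i ∧ x 0 i ≤ B₀) → x 0 - c ∈ Submodule.span ℝ (R : Set (Fin d → ℝ)) →
    T ≤ b → P (x b)

theorem Ev.imp {c : Fin d → ℝ} {P Q : (Fin d → ℝ) → Prop} (h : Ev F R c P)
    (hPQ : ∀ y, P y → Q y) : Ev F R c Q := by
  intro κ₀ hκ₀ B₀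
  obtain ⟨T, hT, h'⟩ := h κ₀ hκ₀ B₀
  exact ⟨T, hT, fun x b h1 h2 h3 h4 => hPQ _ (h' x b h1 h2 h3 h4)⟩

theorem Ev.and {c : Fin d → ℝ} {P Q : (Fin d → ℝ) → Prop} (h : Ev F R c P) (h' : Ev F R c Q) :
    Ev F R c fun y => P y ∧ Q y := by
  intro κ₀ hκ₀ B₀
  obtain ⟨T, hT, h1⟩ := h κ₀ hκ₀ B₀
  obtain ⟨T', hT', h2⟩ := h' κ₀ hκ₀ B₀
  exact ⟨T + T', by positivity, fun x b e1 e2 e3 e4 =>
    ⟨h1 x b e1 e2 e3 (by linarith), h2 x b e1 e2 e3 (by linarith)⟩⟩

theorem Ev.all {c : Fin d → ℝ} {P : Fin d → (Fin d → ℝ) → Prop} (h : ∀ j, Ev F R c (P j)) :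
    Ev F R c fun y => ∀ j, P j y := by
  intro κ₀ hκ₀ B₀
  choose T hT h1 using fun j => h j κ₀ hκ₀ B₀
  refine ⟨∑ j, T j, Finset.sum_nonneg fun j _ => hT j, fun x b e1 e2 e3 e4 j => ?_⟩
  exact h1 j x b e1 e2 e3
    ((Finset.single_le_sum (f := T) (fun j _ => hT j) (Finset.mem_univ j)).trans e4)

theorem IsPot.le_on_box (hV : IsPot W δ I κ B V C) {y : Fin d → ℝ} {B₀ : ℝ}
    (hy : ∀ i, 0 < y i) (hle : ∀ i, y i ≤ B₀) : V y ≤ d * (|B₀| * (|B₀| + C)) := by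
  refine (hV.upper y fun i _ => hy i).trans ?_
  have hC := hV.C_nonneg
  calc ∑ i ∈ I, y i * (Real.log (y i) + C) ≤ ∑ _i ∈ I, |B₀| * (|B₀| + C) := by
        refine Finset.sum_le_sum fun j _ => ?_
        have e1 : y j ≤ |B₀| := (hle j).trans (le_abs_self _)
        have e2 : Real.log (y j) ≤ y j := (Real.log_le_sub_one_of_pos (hy j)).trans (by linarith)
        calc y j * (Real.log (y j) + C) ≤ y j * (|B₀| + C) :=
              mul_le_mul_of_nonneg_left (by linarith) (hy j).le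
          _ ≤ _ := mul_le_mul_of_nonneg_right e1 (by positivity)
    _ ≤ ∑ _i : Fin d, |B₀| * (|B₀| + C) :=
        Finset.sum_le_sum_of_subset_of_nonneg (Finset.subset_univ _) fun _ _ _ => by positivity
    _ = _ := by simp

/-- On a box the potential cannot keep a covector with a large pairing for a long time. -/
theorem IsPot.exists_time (hV : IsPot W δ I κ B V C) (hS : SDiss W δ R F) (c : Fin d → ℝ)
    {κx : ℝ} (hκx : 0 < κx) (Bx : ℝ) :
    ∃ τ > 0, ∀ (x : ℝ → Fin d → ℝ) (s : ℝ), Curve F x s (s + τ) →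
      (∀ r ∈ Set.Icc s (s + τ), ∀ i, κx ≤ x r i ∧ x r i ≤ Bx) →
      (∀ r ∈ Set.Icc s (s + τ), x r - c ∈ Submodule.span ℝ (R : Set (Fin d → ℝ))) →
      (∀ r ∈ Set.Icc s (s + τ), ∀ i ∉ I, κ ≤ x r i ∧ x r i ≤ B) →
      ¬ ∀ r ∈ Set.Icc s (s + τ), ∀ p : Fin d → ℝ, (∀ i ∉ I, p i = 0) →
        (∀ x' : Fin d → ℝ, (∀ i ∈ I, 0 < x' i) →
          V (x r) - 1 / 2 + ∑ i, p i * (x' i - x r i) ≤ V x') →
        (∀ i ∈ I, |p i - Real.log (x r i)| ≤ C) → 1 / 2 ≤ ∑ i, p i * (x r - c) i := by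
  obtain ⟨Mc, hMc⟩ : ∃ Mc, ∀ i, |c i| ≤ Mc :=
    ⟨∑ i, |c i|, fun i => Finset.single_le_sum (f := fun i => |c i|) (fun i _ => abs_nonneg _)
      (Finset.mem_univ i)⟩
  obtain ⟨h, hh, hlarge⟩ := exists_vector_large R (|Bx| + Mc)
  obtain ⟨ρ, hρ, hstrict⟩ := hS.2 κx hκx Bx h hh
  have hC := hV.C_nonneg
  set A : ℝ := d * (|Bx| * (|Bx| + C)) + d * Real.exp C + 1 with hA
  have hA0 : 0 < A := by positivity
  refine ⟨A / ρ, by positivity, fun x s hx hbx hcls hreg hp => ?_⟩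
  have hs : s ≤ s + A / ρ := by have : 0 < A / ρ := by positivity
                                linarith
  have hdec := hV.decrease_gen hs hx hreg (ρ := ρ) (by
    intro r hr p hp0 h2 h3 r' hr' hal
    refine hstrict (x r') (hbx r' hr') p hal (hlarge (x r - c) (hcls r hr) (fun i => ?_) p
      (hp r hr p hp0 h2 h3))
    have h7 : |x r i| ≤ |Bx| := by
      rw [abs_of_pos (hx.pos r hr i)]
      exact (hbx r hr i).2.trans (le_abs_self Bx)
    calc |(x r - c) i| = |x r i - c i| := rfl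
      _ ≤ |x r i| + |c i| := abs_sub _ _
      _ ≤ |Bx| + Mc := add_le_add h7 (hMc i))
  have h1 := hV.le_on_box (hx.pos s ⟨le_rfl, hs⟩) fun i => (hbx s ⟨le_rfl, hs⟩ i).2
  have hpe := hx.pos _ ⟨hs, le_rfl⟩
  have h2 := (sum_ge I C _ fun i _ => hpe i).trans (hV.lower _ fun i _ => hpe i)
  have h3 : ρ * (s + A / ρ - s) = A := by field_simp; ring
  rw [h3] at hdec
  linarith

theorem Curve.class_mem (hS : SDiss W δ R F) {x : ℝ → Fin d → ℝ} {b : ℝ} (hx : Curve F x 0 b)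
    {c : Fin d → ℝ} (h0 : x 0 - c ∈ Submodule.span ℝ (R : Set (Fin d → ℝ))) :
    ∀ r ∈ Set.Icc 0 b, x r - c ∈ Submodule.span ℝ (R : Set (Fin d → ℝ)) := by
  intro r hr
  have h2 := Submodule.add_mem _ ((hx.mono le_rfl hr.2).sub_mem hr.1 _ hS.1) h0
  have : x r - c = x r - x 0 + (x 0 - c) := by abel
  rw [this]; exact h2

theorem uniform_up (hF : Diss W δ F) (hS : SDiss W δ R F) (c : Fin d → ℝ) (hc : ∀ i, 0 < c i) :
    ∃ B, Ev F R c fun y => ∀ i, y i ≤ B := by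
  obtain ⟨V, C, hV⟩ := exists_isPot W δ Finset.univ 1 1 one_pos
  refine ⟨max (Real.exp (C + 1)) (V c + 1 + d * Real.exp C), fun κ₀ hκ₀ B₀ => ?_⟩
  obtain ⟨κx, hκx, Bx, hbox⟩ := apriori_box hF κ₀ B₀ hκ₀
  obtain ⟨τ, hτ, htime⟩ := hV.exists_time hS c hκx Bx
  refine ⟨τ, hτ.le, fun x b hx hx0 hcl hb i => ?_⟩
  have hreg : ∀ s t : ℝ, ∀ r ∈ Set.Icc s t, ∀ i ∉ (Finset.univ : Finset (Fin d)),
      1 ≤ x r i ∧ x r i ≤ 1 := fun s t r _ i hi => absurd (Finset.mem_univ i) hi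
  have hsub : Set.Icc 0 (0 + τ) ⊆ Set.Icc 0 b := Set.Icc_subset_Icc_right (by linarith)
  have hex : ∃ r ∈ Set.Icc 0 (0 + τ), V (x r) ≤ V c + 1 := by
    by_contra hcon
    push Not at hcon
    refine htime x 0 (hx.mono le_rfl (by linarith))
      (fun r hr => hbox x 0 r hr.1 (hx.mono le_rfl (hsub hr).2) hx0)
      (fun r hr => hx.class_mem hS hcl r (hsub hr)) (hreg _ _) fun r hr p _ h2 _ => ?_
    have h5 := h2 c (fun i _ => hc i)
    have h6 := hcon r hr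
    have h7 : ∑ i, p i * (x r - c) i = - ∑ i, p i * (c i - x r i) := by
      rw [← Finset.sum_neg_distrib]
      refine Finset.sum_congr rfl fun i _ => ?_
      rw [Pi.sub_apply]; ring
    rw [h7]
    linarith only [h5, h6]
  obtain ⟨r, hr, hVr⟩ := hex
  have h1 := hV.decrease hF (hsub hr).2 (hx.mono hr.1 le_rfl) (hreg r b)
  have hpt := hx.pos b ⟨hτ.le.trans hb, le_rfl⟩
  exact bound_of_sum C _ (x b) hpt (((hV.lower (x b) (fun i _ => hpt i)).trans h1).trans hVr) i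

theorem uniform_low (hF : Diss W δ F) (hS : SDiss W δ R F) (c : Fin d → ℝ) (hc : ∀ i, 0 < c i)
    (B : ℝ) (hB : Ev F R c fun y => ∀ i, y i ≤ B) :
    ∀ (n : ℕ) (I : Finset (Fin d)), I.Nonempty → Iᶜ.card < n →
      ∃ κ > 0, Ev F R c fun y => ∃ i ∈ I, κ ≤ y i := by
  intro n
  induction n with
  | zero => intro I _ h; exact absurd h (Nat.not_lt_zero _)
  | succ n ih =>
    intro I hI hIn
    have hstep : ∀ j : Fin d, ∃ κ > 0, Ev F R c fun y => j ∉ I → ∃ i ∈ insert j I, κ ≤ y i := by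
      intro j
      by_cases hj : j ∈ I
      · exact ⟨1, one_pos, hB.imp fun _ _ h => absurd hj h⟩
      · have hcard : (insert j I)ᶜ.card < n := by
          have h1 : (insert j I)ᶜ ⊂ Iᶜ := by
            rw [Finset.compl_ssubset_compl]
            exact Finset.ssubset_insert hj
          have := Finset.card_lt_card h1
          omega
        obtain ⟨κ, hκ, h⟩ := ih (insert j I) (Finset.insert_nonempty _ _) hcard
        exact ⟨κ, hκ, h.imp fun _ h' _ => h'⟩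
    choose κf hκf hκ using hstep
    obtain ⟨κ', hκ', hκ'le⟩ := exists_pos_le κf hκf
    obtain ⟨V, C, hV⟩ := exists_isPot W δ I κ' B hκ'
    obtain ⟨cm, hcm0, hcm⟩ := exists_pos_le c hc
    obtain ⟨ε, hε0, hε1, hε2, hε3, hε4⟩ : ∃ ε : ℝ, 0 < ε ∧ ε < κ' ∧ ε ≤ cm / 2 ∧
        Real.log ε + C < 0 ∧ Real.log ε + C ≤ -(1 / cm) := by
      have hcm' : 0 < 1 / cm := by positivity
      refine ⟨min (min (κ' / 2) (cm / 2)) (Real.exp (-C - 1 / cm)), by positivity,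
        ((min_le_left _ _).trans (min_le_left _ _)).trans_lt (by linarith),
        (min_le_left _ _).trans (min_le_right _ _), ?_⟩
      have h3 := (Real.log_le_iff_le_exp (x := min (min (κ' / 2) (cm / 2))
        (Real.exp (-C - 1 / cm))) (by positivity)).mpr (min_le_right _ _)
      constructor <;> linarith
    obtain ⟨κ, hκ0, hex⟩ := exit_lemma hV hF hε0 hε3
    refine ⟨κ, hκ0, fun κ₀ hκ₀ B₀ => ?_⟩
    obtain ⟨κx, hκx, Bx, hbox⟩ := apriori_box hF κ₀ B₀ hκ₀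
    obtain ⟨τ, hτ, htime⟩ := hV.exists_time hS c hκx Bx
    obtain ⟨t₁, ht₁, hall⟩ := (hB.and (Ev.all hκ)) κ₀ hκ₀ B₀
    refine ⟨t₁ + τ, by positivity, fun x b hx hx0 hcl hb => ?_⟩
    have hreg' : ∀ r ∈ Set.Icc t₁ b, (∀ i ∈ I, x r i ≤ ε) → ∀ i ∉ I, κ' ≤ x r i ∧ x r i ≤ B := by
      intro r hr hrI j hj
      obtain ⟨h1, h2⟩ := hall x r (hx.mono le_rfl hr.2) hx0 hcl hr.1
      refine ⟨?_, h1 j⟩
      obtain ⟨i, hi, hi'⟩ := h2 j hj
      rcases Finset.mem_insert.mp hi with h | h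
      · rw [h] at hi'
        exact (hκ'le j).trans hi'
      · exfalso
        have h1 := hrI i h
        have h2 := hκ'le j
        linarith only [hε1, hi', h1, h2]
    have hsub : Set.Icc t₁ (t₁ + τ) ⊆ Set.Icc 0 b := Set.Icc_subset_Icc ht₁ hb
    have hvisit : ∃ s ∈ Set.Icc t₁ (t₁ + τ), ∃ i ∈ I, ε ≤ x s i := by
      by_contra hcon
      push Not at hcon
      refine htime x t₁ (hx.mono ht₁ hb)
        (fun r hr => hbox x 0 r (hsub hr).1 (hx.mono le_rfl (hsub hr).2) hx0)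
        (fun r hr => hx.class_mem hS hcl r (hsub hr))
        (fun r hr => hreg' r ⟨hr.1, (hsub hr).2⟩ fun i hi => (hcon r hr i hi).le)
        fun r hr p hp0 _ h3 => ?_
      have h7 : ∑ i, p i * (x r - c) i = ∑ i ∈ I, p i * (x r - c) i := by
        symm
        apply Finset.sum_subset (Finset.subset_univ I)
        intro i _ hi
        rw [hp0 i hi, zero_mul]
      rw [h7]
      have hterm : ∀ i ∈ I, 1 / 2 ≤ p i * (x r - c) i := by
        intro i hi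
        have h8 := hcon r hr i hi
        have h9 : Real.log (x r i) ≤ Real.log ε := Real.log_le_log (hx.pos r (hsub hr) i) h8.le
        have h10 := (abs_le.mp (h3 i hi)).2
        have h12 : (x r - c) i ≤ -(cm / 2) := by
          have := hcm i
          rw [Pi.sub_apply]; linarith only [hε2, h8, this]
        have h14 : (1 / cm) * (cm / 2) ≤ (-p i) * (-(x r - c) i) :=
          mul_le_mul (by linarith only [hε4, h9, h10]) (by linarith only [h12]) (by positivity)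
            (by linarith only [hε3, h9, h10])
        have h15 : (1 / cm) * (cm / 2) = 1 / 2 := by field_simp
        linarith only [h14, h15]
      obtain ⟨i₀, hi₀⟩ := hI
      have h8 := Finset.single_le_sum (f := fun i => p i * (x r - c) i)
        (fun i hi => le_trans (by norm_num) (hterm i hi)) hi₀
      exact (hterm i₀ hi₀).trans h8
    obtain ⟨s, hs, hsI⟩ := hvisit
    exact hex x s b (hsub hs).2 (hx.mono (hsub hs).1 le_rfl)
      (fun r hr => hreg' r ⟨hs.1.trans hr.1, hr.2⟩) hsI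

/-- Permanence with uniform entering times. -/
theorem uniform_box (hF : Diss W δ F) (hS : SDiss W δ R F) (c : Fin d → ℝ) (hc : ∀ i, 0 < c i) :
    ∃ κ > 0, ∃ B, ∀ κ₀ > 0, ∀ B₀ : ℝ, ∃ T, ∀ (x : ℝ → Fin d → ℝ) (b : ℝ), Curve F x 0 b →
      (∀ i, κ₀ ≤ x 0 i ∧ x 0 i ≤ B₀) → x 0 - c ∈ Submodule.span ℝ (R : Set (Fin d → ℝ)) →
      T ≤ b → ∀ i, κ ≤ x b i ∧ x b i ≤ B := by
  obtain ⟨B, hB⟩ := uniform_up hF hS c hc
  have h1 : ∀ i : Fin d, ∃ κ > 0, Ev F R c fun y => κ ≤ y i := by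
    intro i
    obtain ⟨κ, hκ, h⟩ := uniform_low hF hS c hc B hB _ {i} (Finset.singleton_nonempty i)
      (Nat.lt_succ_self _)
    exact ⟨κ, hκ, h.imp fun y hy => by simpa using hy⟩
  choose κf hκf hκ using h1
  obtain ⟨κ, hκ0, hκle⟩ := exists_pos_le κf hκf
  refine ⟨κ, hκ0, B, fun κ₀ hκ₀ B₀ => ?_⟩
  obtain ⟨T, -, h⟩ := (hB.and (Ev.all hκ)) κ₀ hκ₀ B₀
  exact ⟨T, fun x b e1 e2 e3 e4 i =>
    ⟨(hκle i).trans ((h x b e1 e2 e3 e4).2 i), (h x b e1 e2 e3 e4).1 i⟩⟩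

end Vale.Agent.N072R
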